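import Vale.Agent.P225.Seg.Basic

/-!
P225: chains of segments and the buffer error recursion (helper29).
-/

namespace Vale.Agent.P225

noncomputable section

variable {H : Type*} [NormedAddCommGroup H] [NormedSpace ℝ H]

/-- Conjugation of a segment by changes of basis: `Uu` on values, `Uw` on normalised deviations,
`Vu`, `Vw` their inverses. -/
def Seg.conj (S : Seg H) (Uu Vu Uw Vw : H →L[ℝ] H) : Seg H where
  Q := Uu.comp (S.Q.comp Vu)
  B := Uu.comp (S.B.comp Vw)
  C := Uw.comp (S.C.comp Vu)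
  D := Uw.comp (S.D.comp Vw)

theorem Seg.conj_sol (S : Seg H) {Uu Vu Uw Vw : H →L[ℝ] H} (hu : ∀ x, Vu (Uu x) = x)
    (hw : ∀ x, Vw (Uw x) = x) {ul wl ur wr : H} (h : S.Sol ul wl ur wr) :
    (S.conj Uu Vu Uw Vw).Sol (Uu ul) (Uw wl) (Uu ur) (Uw wr) := by
  obtain ⟨h1, h2⟩ := h
  constructor <;> simp [Seg.conj, hu, hw, h1, h2]

variable [CompleteSpace H]

/-- Slope operators along a chain: `slopes S R i` is the slope at the left end of segment `i`. -/
def slopes (S : ℕ → Seg H) (R : H →L[ℝ] H) : ℕ → H →L[ℝ] H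
  | 0 => R
  | i + 1 => (S i).slopeMap (slopes S R i)

/-- True backward map over segments `i, ..., i + n - 1`. -/
def backChain (S : ℕ → Seg H) (R : H →L[ℝ] H) : ℕ → ℕ → H →L[ℝ] H
  | _, 0 => 1
  | i, n + 1 => ((S i).backMap (slopes S R i)).comp (backChain S R (i + 1) n)

/-- A chain of backward steps gives solutions of every segment. -/
theorem backChain_sol (S : ℕ → Seg H) (R : H →L[ℝ] H)
    (h : ∀ i, ‖(S i).B.comp (slopes S R i)‖ < 1) (i n : ℕ) (x : H) :
    (S i).Sol (backChain S R i (n + 1) x) (slopes S R i (backChain S R i (n + 1) x))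
      (backChain S R (i + 1) n x) (slopes S R (i + 1) (backChain S R (i + 1) n x)) :=
  ((S i).sol_iff (h i) _ _ _).2 ⟨rfl, rfl⟩

/-- The buffer error recursion (section 2 of the existence note), on norms only.
`E i` error at the right end of buffer `i`, `A i` true value at its left end, `Γ i * Z` a bound for
the ideal value there, `η i` the damping of the buffer, `δ` the slope bound. -/
theorem error_recursion {P : ℕ} {E A η Γ : ℕ → ℝ} {K δ Z : ℝ} (hK : 1 ≤ K) (hδ : 0 ≤ δ)
    (hZ : 0 ≤ Z) (hη : ∀ i, 0 ≤ η i) (hΓ : ∀ i, 0 ≤ Γ i) (hA : ∀ i, 0 ≤ A i) (hEP : E P ≤ 0)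
    (hsmall : ∀ i < P, K ^ 2 * η i * δ ≤ 1 / 8)
    (hstep : ∀ i < P, E i ≤ K * E (i + 1) + K * η i * δ * A i)
    (hleft : ∀ i < P, A i ≤ Γ i * Z + K * max (E i) 0 + A i / 4) :
    ∀ i ≤ P, E i ≤ (∑ l ∈ Finset.Ico i P, 4 * (2 * K) ^ (l - i + 1) * η l * Γ l) * δ * Z := by
  intro i hi
  induction' hd : P - i with d ih generalizing i
  · obtain rfl : i = P := by omega
    simpa using hEP
  · have hiP : i < P := by omega
    have ih' := ih (i + 1) (by omega) (by omega)
    set a := (∑ l ∈ Finset.Ico (i + 1) P, 4 * (2 * K) ^ (l - (i + 1) + 1) * η l * Γ l) * δ * Z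
    have ha : 0 ≤ a := by
      have : 0 ≤ ∑ l ∈ Finset.Ico (i + 1) P, 4 * (2 * K) ^ (l - (i + 1) + 1) * η l * Γ l :=
        Finset.sum_nonneg fun l _ => by have := hη l; have := hΓ l; positivity
      positivity
    have hsum : (∑ l ∈ Finset.Ico i P, 4 * (2 * K) ^ (l - i + 1) * η l * Γ l) * δ * Z
        = 8 * K * η i * Γ i * δ * Z + 2 * K * a := by
      rw [Finset.sum_eq_sum_Ico_succ_bot hiP]
      have : ∑ l ∈ Finset.Ico (i + 1) P, 4 * (2 * K) ^ (l - i + 1) * η l * Γ l
          = 2 * K * ∑ l ∈ Finset.Ico (i + 1) P, 4 * (2 * K) ^ (l - (i + 1) + 1) * η l * Γ l := by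
        rw [Finset.mul_sum]
        refine Finset.sum_congr rfl fun l hl => ?_
        have : l - i + 1 = (l - (i + 1) + 1) + 1 := by
          have := (Finset.mem_Ico.1 hl).1
          omega
        rw [this, pow_succ]
        ring
      rw [this]
      simp only [Nat.sub_self, zero_add, pow_one, a]
      ring
    rw [hsum]
    have h1 := hstep i hiP
    have h2 := hleft i hiP
    have h3 := hsmall i hiP
    have hc : 0 ≤ K * η i * δ := by have := hη i; positivity
    have hg : 0 ≤ Γ i * Z := mul_nonneg (hΓ i) hZ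
    rcases le_total (E i) 0 with hE | hE
    · nlinarith [mul_nonneg hc hg, mul_nonneg (zero_le_one.trans hK) ha]
    · rw [max_eq_left hE] at h2
      have h4 : K * η i * δ * A i ≤ K * η i * δ * (2 * (Γ i * Z + K * E i)) := by
        gcongr
        nlinarith
      have h5 : 2 * (K ^ 2 * η i * δ) * E i ≤ 2 * (1 / 8) * E i := by gcongr
      nlinarith [mul_nonneg hc hg, mul_nonneg (zero_le_one.trans hK) ha,
        mul_le_mul_of_nonneg_left ih' (zero_le_one.trans hK)]

end

end Vale.Agent.P225
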