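import Vale.Agent.P225.Seg.Picard

/-!
P225, module 9 (helper2): the segment of a perturbed interval, with first-order kernel.

`PicardPert.seg P : Seg (lp E 2)`; level `g` carries deviation coordinates `(u' - z_g a u) / μ g` on
the left and `(u' - ρ g u) / μ g` on the right.
-/

open Set

namespace Vale.Agent.P225

open scoped lp ENNReal

noncomputable section

variable {G : Type*} {E : G → Type*} [∀ g, NormedAddCommGroup (E g)] [∀ g, NormedSpace ℝ (E g)]

theorem scalarOp_sum_sq {σ : G → ℝ} {K : ℝ} (hσ : ∀ g, |σ g| ≤ K) (x : lp E 2) (s : Finset G) :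
    ∑ g ∈ s, ‖σ g • x g‖ ^ 2 ≤ (K * ‖x‖) ^ 2 := by
  rw [mul_pow]
  refine le_trans (Finset.sum_le_sum fun g _ => ?_)
    ((Finset.mul_sum _ _ _).ge.trans (mul_le_mul_of_nonneg_left (sum_sq_le_lp x s) (sq_nonneg K)))
  rw [norm_smul, mul_pow, Real.norm_eq_abs]
  exact mul_le_mul_of_nonneg_right (pow_le_pow_left₀ (abs_nonneg _) (hσ g) 2) (sq_nonneg _)

/-- Operator acting as a scalar on each level. -/
def scalarOp (σ : G → ℝ) (K : ℝ) (hK : 0 ≤ K) (hσ : ∀ g, |σ g| ≤ K) : lp E 2 →L[ℝ] lp E 2 :=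
  LinearMap.mkContinuous
    { toFun := fun x => ⟨fun g => σ g • x g, memℓp_two (scalarOp_sum_sq hσ x)⟩
      map_add' := fun x y => by
        ext g
        show σ g • (x + y) g = σ g • x g + σ g • y g
        exact smul_add _ _ _
      map_smul' := fun r x => by
        ext g
        show σ g • (r • x) g = r • (σ g • x g)
        exact smul_comm _ _ _ }
    K fun x => norm_le_of_sum_sq (mul_nonneg hK (norm_nonneg x)) (scalarOp_sum_sq hσ x)

theorem norm_scalarOp_le (σ : G → ℝ) (K : ℝ) (hK : 0 ≤ K) (hσ : ∀ g, |σ g| ≤ K) :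
    ‖(scalarOp σ K hK hσ : lp E 2 →L[ℝ] lp E 2)‖ ≤ K := LinearMap.mkContinuous_norm_le _ hK _

@[simp] theorem scalarOp_apply (σ : G → ℝ) (K : ℝ) (hK : 0 ≤ K) (hσ : ∀ g, |σ g| ≤ K)
    (x : lp E 2) (g : G) : scalarOp σ K hK hσ x g = σ g • x g := rfl

namespace PicardBase

variable (S : PicardBase G)

/-- Unperturbed profile for a unit value at the right end. -/
def profU (g : G) (t : ℝ) : ℝ := Ode.uSol S.c (S.z g) S.a S.b 1 0 t

/-- Unperturbed profile for a unit normalised deviation at the left end. -/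
def profV (g : G) (t : ℝ) : ℝ := Ode.uSol S.c (S.z g) S.a S.b 0 (S.μ g) t

theorem continuous_profU (g : G) : Continuous (S.profU g) :=
  continuous_iff_continuousAt.2 fun t =>
    (Ode.hasDerivAt_uSol S.cont_c (S.cont_z g) _ _ _ _ t).continuousAt

theorem continuous_profV (g : G) : Continuous (S.profV g) :=
  continuous_iff_continuousAt.2 fun t =>
    (Ode.hasDerivAt_uSol S.cont_c (S.cont_z g) _ _ _ _ t).continuousAt

theorem profU_eq (g : G) (t : ℝ) : S.profU g t = Real.exp (Ode.prim (S.z g) S.b t) := by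
  simp [profU, Ode.uSol, Ode.devSol]

theorem abs_profU_le (g : G) {t : ℝ} (ht : t ∈ Icc S.a S.b) : |S.profU g t| ≤ 1 := by
  rw [profU_eq, Real.abs_exp, Real.exp_le_one_iff]
  have h := Ode.prim_le_prim (a := S.b) (k := 0) (S.cont_z g)
    (fun s hs => S.z_nonneg g s ⟨ht.1.trans hs.1, hs.2⟩) ht.2
  simpa using h

theorem abs_profV_le (g : G) {t : ℝ} (ht : t ∈ Icc S.a S.b) : |S.profV g t| ≤ S.K := by
  have hμ : 0 < S.μ g := lt_of_lt_of_le one_pos (S.one_le_μ g)
  have hK : 0 < S.K := lt_of_le_of_ne S.K_nonneg fun h => by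
    have := S.gain g t ht
    rw [← h, zero_mul] at this
    linarith
  have hcz : Continuous fun s => S.c s + S.z g s := S.cont_c.add (S.cont_z g)
  set W := Ode.devSol S.c (S.z g) S.a (S.μ g) t with hW
  have hshift : ∀ s, Ode.devSol S.c (S.z g) S.a (S.μ g) s = Ode.devSol S.c (S.z g) t W s := by
    intro s
    have e : Ode.prim (fun r => S.c r + S.z g r) S.a s
        = Ode.prim (fun r => S.c r + S.z g r) S.a t + Ode.prim (fun r => S.c r + S.z g r) t s :=
      (intervalIntegral.integral_add_adjacent_intervals (hcz.intervalIntegrable _ _)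
        (hcz.intervalIntegrable _ _)).symm
    simp only [hW, Ode.devSol, e, neg_add, Real.exp_add, mul_assoc]
  have e : S.profV g t = Ode.coefB S.c (S.z g) t S.b * W := by
    have e1 : S.profV g t = Ode.uSol S.c (S.z g) t S.b 0 W t := by
      simp only [profV, Ode.uSol, hshift]
    rw [e1, Ode.uSol_left (S.cont_z g)]
    ring
  have hB := Ode.abs_coefB_le S.cont_c (S.cont_z g) ht.2 (div_pos hμ hK) fun s hs =>
    (div_le_iff₀ hK).2 ((S.gain g s ⟨ht.1.trans hs.1, hs.2⟩).trans_eq (mul_comm _ _))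
  rw [one_div_div] at hB
  have hD : |W| ≤ S.μ g := by
    rw [hW, Ode.devSol, abs_mul, Real.abs_exp, abs_of_pos hμ]
    refine mul_le_of_le_one_right hμ.le (Real.exp_le_one_iff.2 ?_)
    have hp := Ode.prim_le_prim (a := S.a) (k := 0) (κ := fun r => S.c r + S.z g r) hcz
      (fun r hr => (S.kw_pos g).le.trans (S.kw_le g r ⟨hr.1, hr.2.trans ht.2⟩)) ht.1
    simp only [Ode.prim_self, zero_mul, add_zero] at hp
    linarith
  rw [e, abs_mul]
  calc |Ode.coefB S.c (S.z g) t S.b| * |W| ≤ S.K / S.μ g * S.μ g :=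
        mul_le_mul hB hD (abs_nonneg _) (div_nonneg hK.le hμ.le)
    _ = S.K := div_mul_cancel₀ _ hμ.ne'

/-- Coefficient `C` without perturbation. -/
def coefC (g : G) : ℝ := (S.z g S.b - S.ρ g) / S.μ g

theorem abs_coefC_le (g : G) : |S.coefC g| ≤ S.δ := by
  have hμ : 0 < S.μ g := lt_of_lt_of_le one_pos (S.one_le_μ g)
  rw [coefC, abs_div, abs_of_pos hμ, div_le_iff₀ hμ]
  exact S.close g

theorem abs_coefD_le (g : G) : |Ode.coefD S.c (S.z g) S.a S.b| ≤ 1 := by
  rw [abs_of_pos (Ode.coefD_pos _ _ _ _)]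
  have h := Ode.coefD_le (k := S.kw g) S.cont_c (S.cont_z g) S.le (S.kw_le g)
  refine h.trans (Real.exp_le_one_iff.2 ?_)
  nlinarith [S.kw_pos g, S.le]

/-- A level vector times a scalar profile, as a path. -/
def profPath (f : G → ℝ → ℝ) (hf : ∀ g, Continuous (f g)) (x : lp E 2) (g : G) :
    C(Icc S.a S.b, E g) :=
  ⟨fun t => f g t • x g, ((hf g).comp continuous_subtype_val).smul continuous_const⟩

theorem profPath_sum_sq (f : G → ℝ → ℝ) (hf : ∀ g, Continuous (f g)) {M : ℝ} (hM : 0 ≤ M)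
    (hb : ∀ g, ∀ t ∈ Icc S.a S.b, |f g t| ≤ M) (x : lp E 2) (s : Finset G) :
    ∑ g ∈ s, ‖S.profPath f hf x g‖ ^ 2 ≤ (M * ‖x‖) ^ 2 := by
  rw [mul_pow]
  refine le_trans (Finset.sum_le_sum fun g _ => ?_)
    ((Finset.mul_sum _ _ _).ge.trans (mul_le_mul_of_nonneg_left (sum_sq_le_lp x s) (sq_nonneg M)))
  rw [← mul_pow]
  refine pow_le_pow_left₀ (norm_nonneg _) ?_ 2
  rw [ContinuousMap.norm_le _ (mul_nonneg hM (norm_nonneg _))]
  intro t
  show ‖f g t • x g‖ ≤ _
  rw [norm_smul, Real.norm_eq_abs]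
  exact mul_le_mul_of_nonneg_right (hb g t t.2) (norm_nonneg _)

/-- The map from level data to paths given by a bounded profile. -/
def profMap (f : G → ℝ → ℝ) (hf : ∀ g, Continuous (f g)) (M : ℝ) (hM : 0 ≤ M)
    (hb : ∀ g, ∀ t ∈ Icc S.a S.b, |f g t| ≤ M) : lp E 2 →L[ℝ] PX S E :=
  LinearMap.mkContinuous
    { toFun := fun x => ⟨S.profPath f hf x, memℓp_two (S.profPath_sum_sq f hf hM hb x)⟩
      map_add' := fun x y => by
        ext g t
        show f g t • (x + y) g = f g t • x g + f g t • y g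
        exact smul_add _ _ _
      map_smul' := fun r x => by
        ext g t
        show f g t • (r • x) g = r • (f g t • x g)
        exact smul_comm _ _ _ }
    M fun x => norm_le_of_sum_sq (mul_nonneg hM (norm_nonneg x)) (S.profPath_sum_sq f hf hM hb x)

/-- Paths without perturbation generated by the right value. -/
def baseU : lp E 2 →L[ℝ] PX S E :=
  S.profMap S.profU S.continuous_profU 1 zero_le_one fun g _ ht => S.abs_profU_le g ht

/-- Paths without perturbation generated by the left deviation. -/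
def baseV : lp E 2 →L[ℝ] PX S E :=
  S.profMap S.profV S.continuous_profV S.K S.K_nonneg fun g _ ht => S.abs_profV_le g ht

theorem norm_baseU_le : ‖(S.baseU : lp E 2 →L[ℝ] PX S E)‖ ≤ 1 :=
  ContinuousLinearMap.opNorm_le_bound _ zero_le_one fun x =>
    norm_le_of_sum_sq (by positivity)
      (S.profPath_sum_sq S.profU S.continuous_profU zero_le_one (fun g _ ht => S.abs_profU_le g ht) x)

theorem norm_baseV_le : ‖(S.baseV : lp E 2 →L[ℝ] PX S E)‖ ≤ S.K :=
  ContinuousLinearMap.opNorm_le_bound _ S.K_nonneg fun x =>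
    norm_le_of_sum_sq (mul_nonneg S.K_nonneg (norm_nonneg x))
      (S.profPath_sum_sq S.profV S.continuous_profV S.K_nonneg (fun g _ ht => S.abs_profV_le g ht) x)

theorem norm_baseU_apply_le (x : lp E 2) : ‖(S.baseU x : PX S E)‖ ≤ ‖x‖ :=
  ((S.baseU (E := E)).le_of_opNorm_le S.norm_baseU_le x).trans_eq (one_mul _)

theorem norm_baseV_apply_le (x : lp E 2) : ‖(S.baseV x : PX S E)‖ ≤ S.K * ‖x‖ :=
  (S.baseV (E := E)).le_of_opNorm_le S.norm_baseV_le x

@[simp] theorem baseU_apply (x : lp E 2) (g : G) (t : Icc S.a S.b) :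
    S.baseU x g t = S.profU g t • x g := rfl

@[simp] theorem baseV_apply (x : lp E 2) (g : G) (t : Icc S.a S.b) :
    S.baseV x g t = S.profV g t • x g := rfl

omit [∀ g, NormedSpace ℝ (E g)] in
theorem evA_sum_sq (x : PX S E) (s : Finset G) :
    ∑ g ∈ s, ‖x g ⟨S.a, left_mem_Icc.2 S.le⟩‖ ^ 2 ≤ (1 * ‖x‖) ^ 2 := by
  rw [one_mul]
  exact le_trans (Finset.sum_le_sum fun g _ =>
    pow_le_pow_left₀ (norm_nonneg _) ((x g).norm_coe_le_norm _) 2) (sum_sq_le_lp x s)

/-- Value at the left end. -/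
def evA : PX S E →L[ℝ] lp E 2 :=
  LinearMap.mkContinuous
    { toFun := fun x => ⟨fun g => x g ⟨S.a, left_mem_Icc.2 S.le⟩, memℓp_two (S.evA_sum_sq x)⟩
      map_add' := fun x y => by ext g; rfl
      map_smul' := fun r x => by ext g; rfl }
    1 fun x => norm_le_of_sum_sq (by positivity) (S.evA_sum_sq x)

theorem norm_evA_le : ‖(S.evA : PX S E →L[ℝ] lp E 2)‖ ≤ 1 :=
  LinearMap.mkContinuous_norm_le _ zero_le_one _

theorem norm_evA_apply_le (x : PX S E) : ‖S.evA x‖ ≤ ‖x‖ :=
  norm_le_of_sum_sq (norm_nonneg x) fun s => (S.evA_sum_sq x s).trans_eq (by rw [one_mul])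

@[simp] theorem evA_apply (x : PX S E) (g : G) :
    S.evA x g = x g ⟨S.a, left_mem_Icc.2 S.le⟩ := rfl

/-- `C` without perturbation. -/
def baseC : lp E 2 →L[ℝ] lp E 2 := scalarOp S.coefC S.δ S.δ_nonneg S.abs_coefC_le

/-- `D` without perturbation. -/
def baseD : lp E 2 →L[ℝ] lp E 2 :=
  scalarOp (fun g => Ode.coefD S.c (S.z g) S.a S.b) 1 zero_le_one S.abs_coefD_le

end PicardBase

namespace PicardPert

variable [∀ g, CompleteSpace (E g)] {S : PicardBase G} (P : PicardPert S E)

theorem evW_sum_sq (x : PX S E) (s : Finset G) :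
    ∑ g ∈ s, ‖(S.μ g)⁻¹ • P.devPert x g S.b‖ ^ 2 ≤ (P.θ * ‖x‖) ^ 2 := by
  have hμ : ∀ g, 0 < S.μ g := fun g => lt_of_lt_of_le one_pos (S.one_le_μ g)
  rw [mul_pow]
  refine le_trans (Finset.sum_le_sum fun g _ => pow_le_pow_left₀ (norm_nonneg _) ?_ 2)
    (schur_sum_sq_le (M := fun g h => P.p g h / (S.kw g * S.μ g)) (nb := P.nb)
      (f := fun h => ‖x h‖)
      (fun g h => div_nonneg (P.p_nonneg g h) (mul_pos (S.kw_pos g) (hμ g)).le)
      P.θ_nonneg P.rowW P.colW (sum_sq_le_lp x) s)
  rw [norm_smul, norm_inv, Real.norm_eq_abs, abs_of_pos (hμ g)]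
  refine (mul_le_mul_of_nonneg_left (P.norm_devPert_le x g (right_mem_Icc.2 S.le))
    (inv_pos.2 (hμ g)).le).trans_eq ?_
  rw [Finset.sum_div, Finset.mul_sum]
  exact Finset.sum_congr rfl fun h _ => by ring

/-- Normalised deviation produced at the right end. -/
def evW : PX S E →L[ℝ] lp E 2 :=
  LinearMap.mkContinuous
    { toFun := fun x => ⟨fun g => (S.μ g)⁻¹ • P.devPert x g S.b, memℓp_two (P.evW_sum_sq x)⟩
      map_add' := fun x y => by
        ext g
        show (S.μ g)⁻¹ • P.devPert (x + y) g S.b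
          = (S.μ g)⁻¹ • P.devPert x g S.b + (S.μ g)⁻¹ • P.devPert y g S.b
        have h := congrFun (P.devPert_add_smul 1 x y g) S.b
        simp only [one_smul] at h
        rw [h, smul_add]
      map_smul' := fun r x => by
        ext g
        show (S.μ g)⁻¹ • P.devPert (r • x) g S.b = r • ((S.μ g)⁻¹ • P.devPert x g S.b)
        have h := congrFun (P.devPert_add_smul r x 0 g) S.b
        have h0 : P.devPert 0 g S.b = 0 := by simp [devPert, force, ext, IccExtend_apply, kerW]
        simp only [add_zero, h0] at h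
        rw [h, smul_comm] }
    P.θ fun x => norm_le_of_sum_sq (mul_nonneg P.θ_nonneg (norm_nonneg x)) (P.evW_sum_sq x)

theorem norm_evW_le : ‖P.evW‖ ≤ P.θ := LinearMap.mkContinuous_norm_le _ P.θ_nonneg _

@[simp] theorem evW_apply (x : PX S E) (g : G) :
    P.evW x g = (S.μ g)⁻¹ • P.devPert x g S.b := rfl

/-- The segment of the perturbed interval. -/
def seg : Seg (lp E 2) where
  Q := S.evA.comp ((neumann P.step).comp S.baseU)
  B := S.evA.comp ((neumann P.step).comp S.baseV)
  C := S.baseC + P.evW.comp ((neumann P.step).comp S.baseU)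
  D := S.baseD + P.evW.comp ((neumann P.step).comp S.baseV)

/-- The path with two-point data `ur` (right value) and `wl` (left deviation). -/
def path (ur wl : lp E 2) : PX S E := neumann P.step (S.baseU ur + S.baseV wl)

/-- Deviation along a solution. -/
def dev (ur wl : lp E 2) (g : G) : ℝ → E g :=
  kerW S.c (S.z g) S.a (S.μ g • wl g) (P.force (P.path ur wl) g)

/-- Value along a solution, defined on all of `ℝ`. -/
def value (ur wl : lp E 2) (g : G) : ℝ → E g := kerY (S.z g) S.b (ur g) (P.dev ur wl g)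

theorem continuous_dev (ur wl : lp E 2) (g : G) : Continuous (P.dev ur wl g) :=
  continuous_kerW S.cont_c (S.cont_z g) _ _ (P.continuous_force _ g)

theorem dev_eq (ur wl : lp E 2) (g : G) (t : ℝ) :
    P.dev ur wl g t
      = Ode.devSol S.c (S.z g) S.a (S.μ g) t • wl g + P.devPert (P.path ur wl) g t := by
  simp only [dev, devPert, kerW, zero_add, smul_add, smul_smul, Ode.devSol]
  rw [mul_comm]

theorem value_eq (ur wl : lp E 2) (g : G) (t : ℝ) :
    P.value ur wl g t = S.profU g t • ur g + S.profV g t • wl g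
      + kerY (S.z g) S.b 0 (P.devPert (P.path ur wl) g) t := by
  have hd : Continuous (Ode.devSol S.c (S.z g) S.a (S.μ g)) :=
    Ode.continuous_devSol S.cont_c (S.cont_z g) _ _
  have h1 := kerY_add_smul (b := S.b) (S.cont_z g) 1 (U := ur g) (U' := 0)
    (w := fun s => Ode.devSol S.c (S.z g) S.a (S.μ g) s • wl g)
    (hd.smul continuous_const) (P.continuous_devPert (P.path ur wl) g) t
  simp only [one_smul, add_zero] at h1
  have h2 : (fun s => Ode.devSol S.c (S.z g) S.a (S.μ g) s • wl g + P.devPert (P.path ur wl) g s)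
      = P.dev ur wl g := funext fun s => (P.dev_eq ur wl g s).symm
  rw [value, ← h2, h1]
  congr 1
  simp only [kerY, S.profU_eq g t, PicardBase.profV, Ode.uSol, zero_add, smul_add, mul_smul,
    ← intervalIntegral.integral_smul_const]

section Solved

variable (hθ : P.θ < 1)
include hθ

theorem norm_step_lt : ‖P.step‖ < 1 := P.norm_step_le.trans_lt hθ

theorem path_eq (ur wl : lp E 2) :
    P.path ur wl = S.baseU ur + S.baseV wl + P.step (P.path ur wl) := by
  have h := neumann_mul (P.norm_step_lt hθ) (S.baseU ur + S.baseV wl)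
  simp only [sub_apply, one_apply_eq_self] at h
  exact sub_eq_iff_eq_add.1 h

theorem value_eq_path (ur wl : lp E 2) (g : G) (t : Icc S.a S.b) :
    P.value ur wl g t = P.path ur wl g t := by
  rw [P.value_eq ur wl g t]
  conv_rhs => rw [P.path_eq hθ ur wl]
  rfl

/-- The forcing is `P` applied to the solution itself. -/
theorem force_eq (ur wl : lp E 2) (g : G) {t : ℝ} (ht : t ∈ Icc S.a S.b) :
    P.force (P.path ur wl) g t = ∑ h ∈ P.nb g, P.P t g h (P.value ur wl h t) := by
  refine Finset.sum_congr rfl fun h _ => ?_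
  rw [ext, IccExtend_of_mem _ _ ht, ← P.value_eq_path hθ ur wl h ⟨t, ht⟩]

omit hθ in
theorem hasDerivAt_value (ur wl : lp E 2) (g : G) (t : ℝ) :
    HasDerivAt (P.value ur wl g) (S.z g t • P.value ur wl g t + P.dev ur wl g t) t :=
  hasDerivAt_kerY (S.cont_z g) _ _ (P.continuous_dev ur wl g) t

/-- The second order equation with perturbation. -/
theorem hasDerivAt_deriv_value (ur wl : lp E 2) (g : G) {t l : ℝ} (ht : t ∈ Icc S.a S.b)
    (hz : ∃ z', HasDerivAt (S.z g) z' t ∧ z' + S.z g t ^ 2 + S.c t * S.z g t = l) :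
    HasDerivAt (fun s => S.z g s • P.value ur wl g s + P.dev ur wl g s)
      (l • P.value ur wl g t - S.c t • (S.z g t • P.value ur wl g t + P.dev ur wl g t)
        + ∑ h ∈ P.nb g, P.P t g h (P.value ur wl h t)) t := by
  obtain ⟨z', h1, h2⟩ := hz
  refine ((h1.smul (P.hasDerivAt_value ur wl g t)).add
    (hasDerivAt_kerW S.cont_c (S.cont_z g) S.a _ (P.continuous_force _ g) t)).congr_deriv ?_
  rw [← P.force_eq hθ ur wl g ht, ← h2]
  simp only [dev]
  module

/-- The segment relations are the two-point data of `value`. -/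
theorem sol_value {ul wl ur wr : lp E 2} (hs : P.seg.Sol ul wl ur wr) (g : G) :
    P.value ur wl g S.a = ul g ∧ P.value ur wl g S.b = ur g ∧
      P.dev ur wl g S.a = S.μ g • wl g ∧
      S.z g S.b • ur g + P.dev ur wl g S.b - S.ρ g • ur g = S.μ g • wr g := by
  obtain ⟨h1, h2⟩ := hs
  have hμ : S.μ g ≠ 0 := (lt_of_lt_of_le one_pos (S.one_le_μ g)).ne'
  have hpath : P.path ur wl = neumann P.step (S.baseU ur) + neumann P.step (S.baseV wl) :=
    map_add _ _ _
  refine ⟨?_, by simp [value, kerY], by simp [dev, kerW], ?_⟩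
  · have e : ul = S.evA (P.path ur wl) := by rw [h1, hpath, map_add]; rfl
    rw [e, S.evA_apply]
    exact P.value_eq_path hθ ur wl g ⟨S.a, left_mem_Icc.2 S.le⟩
  · have e : wr = S.baseC ur + S.baseD wl + P.evW (P.path ur wl) := by
      rw [h2, hpath, map_add]
      show _ + _ = _
      simp only [seg, add_apply, ContinuousLinearMap.comp_apply]
      abel
    rw [e]
    show _ = S.μ g • (S.coefC g • ur g + Ode.coefD S.c (S.z g) S.a S.b • wl g
      + (S.μ g)⁻¹ • P.devPert (P.path ur wl) g S.b)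
    rw [P.dev_eq ur wl g S.b, Ode.devSol_right]
    simp only [PicardBase.coefC, smul_add, smul_smul]
    rw [mul_div_cancel₀ _ hμ, mul_inv_cancel₀ hμ, one_smul, sub_smul]
    rw [mul_comm (S.μ g) (Ode.coefD _ _ _ _)]
    abel

end Solved

/-! ### Bounds and first order -/

section Bounds

variable (hθ : P.θ ≤ 1 / 2)
include hθ

theorem norm_sol_le (x : PX S E) : ‖neumann P.step x‖ ≤ 2 * ‖x‖ := by
  have h := P.norm_step_le
  refine (norm_neumann_le (by linarith) x).trans ?_
  rw [div_le_iff₀ (by linarith)]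
  nlinarith [norm_nonneg x]

theorem norm_sol_sub_le (x : PX S E) : ‖neumann P.step x - x‖ ≤ 2 * P.θ * ‖x‖ := by
  have h := P.norm_step_le
  have e : neumann P.step x - x = P.step (neumann P.step x) := by
    have := neumann_mul (T := P.step) (by linarith) x
    simp only [sub_apply, one_apply_eq_self] at this
    nth_rewrite 2 [← this]
    abel
  rw [e]
  calc ‖P.step (neumann P.step x)‖ ≤ P.θ * (2 * ‖x‖) :=
        (P.step.le_opNorm _).trans (mul_le_mul h (P.norm_sol_le hθ x) (norm_nonneg _) P.θ_nonneg)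
    _ = 2 * P.θ * ‖x‖ := by ring

theorem norm_sol_sub_step_le (x : PX S E) :
    ‖neumann P.step x - x - P.step x‖ ≤ 2 * P.θ ^ 2 * ‖x‖ := by
  have h := P.norm_step_le
  have e : neumann P.step x - x - P.step x = P.step (neumann P.step x - x) := by
    have := neumann_mul (T := P.step) (by linarith) x
    simp only [sub_apply, one_apply_eq_self] at this
    have e2 : neumann P.step x - x = P.step (neumann P.step x) := by
      nth_rewrite 2 [← this]
      abel
    rw [map_sub, e2]
  rw [e]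
  calc ‖P.step (neumann P.step x - x)‖ ≤ P.θ * (2 * P.θ * ‖x‖) :=
        (P.step.le_opNorm _).trans (mul_le_mul h (P.norm_sol_sub_le hθ x) (norm_nonneg _) P.θ_nonneg)
    _ = 2 * P.θ ^ 2 * ‖x‖ := by ring

theorem norm_seg_Q_le : ‖P.seg.Q‖ ≤ 2 :=
  ContinuousLinearMap.opNorm_le_bound _ (by norm_num) fun x =>
    (S.norm_evA_apply_le _).trans ((P.norm_sol_le hθ _).trans
      (mul_le_mul_of_nonneg_left (S.norm_baseU_apply_le x) zero_le_two))

theorem norm_seg_B_le : ‖P.seg.B‖ ≤ 2 * S.K :=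
  ContinuousLinearMap.opNorm_le_bound _ (mul_nonneg zero_le_two S.K_nonneg) fun x =>
    (S.norm_evA_apply_le _).trans ((P.norm_sol_le hθ _).trans
      ((mul_le_mul_of_nonneg_left (S.norm_baseV_apply_le x) zero_le_two).trans_eq (by ring)))

theorem norm_seg_C_le : ‖P.seg.C‖ ≤ S.δ + 2 * P.θ :=
  (norm_add_le _ _).trans (add_le_add
    (norm_scalarOp_le S.coefC S.δ S.δ_nonneg S.abs_coefC_le)
    (ContinuousLinearMap.opNorm_le_bound _ (mul_nonneg zero_le_two P.θ_nonneg) fun x =>
      (P.evW.le_of_opNorm_le P.norm_evW_le _).trans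
        ((mul_le_mul_of_nonneg_left ((P.norm_sol_le hθ _).trans
          (mul_le_mul_of_nonneg_left (S.norm_baseU_apply_le x) zero_le_two)) P.θ_nonneg).trans_eq
            (by ring))))

theorem norm_seg_D_le : ‖P.seg.D‖ ≤ 1 + 2 * P.θ * S.K :=
  (norm_add_le _ _).trans (add_le_add
    (norm_scalarOp_le _ 1 zero_le_one S.abs_coefD_le)
    (ContinuousLinearMap.opNorm_le_bound _
      (mul_nonneg (mul_nonneg zero_le_two P.θ_nonneg) S.K_nonneg) fun x =>
      (P.evW.le_of_opNorm_le P.norm_evW_le _).trans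
        ((mul_le_mul_of_nonneg_left ((P.norm_sol_le hθ _).trans
          (mul_le_mul_of_nonneg_left (S.norm_baseV_apply_le x) zero_le_two)) P.θ_nonneg).trans_eq
            (by ring))))

/-- First order in the perturbation: `Q = Q₀ + evA ∘ step ∘ baseU + O(θ²)`. -/
theorem norm_seg_Q_sub_le (x : lp E 2) :
    ‖P.seg.Q x - S.evA (S.baseU x) - S.evA (P.step (S.baseU x))‖ ≤ 2 * P.θ ^ 2 * ‖x‖ := by
  show ‖S.evA (neumann P.step (S.baseU x)) - _ - _‖ ≤ _
  rw [← map_sub, ← map_sub]
  refine (S.norm_evA_apply_le _).trans ?_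
  refine (P.norm_sol_sub_step_le hθ _).trans ?_
  exact mul_le_mul_of_nonneg_left (S.norm_baseU_apply_le x) (by positivity)

end Bounds

end PicardPert

end

end Vale.Agent.P225
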