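import Vale.Agent.P225.Space
import Vale.Agent.P225.Seg.Chain
import Vale.Agent.P225.Seg.Insert

/-!
P225, module 9 (helper2): `HSp` as `ℓ²` over the levels of a junction, the perturbed segment on
`HSp`, Lipschitz dependence on the perturbation and bounds for the gains.
-/

open Set

namespace Vale.Agent.P225

open scoped lp ENNReal

noncomputable section

/-- States of one level. -/
abbrev Fib (J : Fin 3) (L : ℕ × ℕ) := {i : St // i.blk.level J = L}

theorem labels_le_of_level {J : Fin 3} {L : ℕ × ℕ} {V : Blk} (h : V.level J = L) :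
    V.la ≤ L.1 + L.2 ∧ V.lb ≤ L.1 + L.2 ∧ V.lc ≤ L.1 + L.2 := by
  subst h
  obtain ⟨-, h1, h2, h3⟩ := V.2
  fin_cases J <;> simp only [Blk.level, Blk.la, Blk.lb, Blk.lc] <;> simp <;> omega

instance finite_fib (J : Fin 3) (L : ℕ × ℕ) : Finite (Fib J L) := by
  have hfin : Finite {V : Blk // V.level J = L} := by
    refine Finite.of_injective
      (fun V => ((⟨V.1.la, Nat.lt_succ_of_le (labels_le_of_level V.2).1⟩ : Fin (L.1 + L.2 + 1)),
        (⟨V.1.lb, Nat.lt_succ_of_le (labels_le_of_level V.2).2.1⟩ : Fin (L.1 + L.2 + 1)),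
        (⟨V.1.lc, Nat.lt_succ_of_le (labels_le_of_level V.2).2.2⟩ : Fin (L.1 + L.2 + 1)))) ?_
    intro V W h
    simp only [Prod.mk.injEq, Fin.mk.injEq, Blk.la, Blk.lb, Blk.lc] at h
    exact Subtype.ext (Subtype.ext (Prod.ext h.1 (Prod.ext h.2.1 h.2.2)))
  exact Finite.of_injective
    (fun i : Fib J L => (⟨⟨i.1.blk, i.2⟩, i.1.2⟩ : Σ V : {V : Blk // V.level J = L}, Fin V.1.dim))
    fun i j h => by
      obtain ⟨⟨V, m⟩, hi⟩ := i
      obtain ⟨⟨W, n⟩, hj⟩ := j
      simp only [Sigma.mk.injEq, Subtype.mk.injEq] at h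
      obtain ⟨rfl, h2⟩ := h
      obtain rfl := eq_of_heq h2
      rfl

noncomputable instance fintype_fib (J : Fin 3) (L : ℕ × ℕ) : Fintype (Fib J L) := Fintype.ofFinite _

/-- Coefficients on one level. -/
abbrev LevSp (J : Fin 3) (L : ℕ × ℕ) := EuclideanSpace ℝ (Fib J L)

/-- The state space grouped by the levels of junction `J`. -/
abbrev HLev (J : Fin 3) := lp (fun L : ℕ × ℕ => LevSp J L) 2

theorem toLev_sum_sq (J : Fin 3) (x : HSp) (s : Finset (ℕ × ℕ)) :
    ∑ L ∈ s, ‖(WithLp.toLp 2 fun i : Fib J L => x i.1 : LevSp J L)‖ ^ 2 ≤ ‖x‖ ^ 2 := by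
  classical
  simp only [EuclideanSpace.norm_sq_eq]
  rw [Finset.sum_sigma' s (fun _ => Finset.univ)]
  refine le_trans (le_of_eq ?_) (sum_sq_le_lp x
    ((s.sigma fun _ => Finset.univ).image fun p : Σ L, Fib J L => p.2.1))
  rw [Finset.sum_image]
  rintro ⟨L, i, hi⟩ - ⟨L', i', hi'⟩ - h
  simp only at h
  subst h
  subst hi
  subst hi'
  rfl

theorem ofLev_sum_sq (J : Fin 3) (y : HLev J) (s : Finset St) :
    ∑ i ∈ s, ‖y (i.blk.level J) ⟨i, rfl⟩‖ ^ 2 ≤ ‖y‖ ^ 2 := by
  classical
  refine le_trans ?_ (sum_sq_le_lp y (s.image fun i => i.blk.level J))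
  simp only [EuclideanSpace.norm_sq_eq]
  rw [Finset.sum_sigma' (s.image fun i => i.blk.level J) (fun _ => Finset.univ)]
  rw [← Finset.sum_image (g := fun i : St => (⟨i.blk.level J, i, rfl⟩ : Σ L, Fib J L))
    (f := fun p => ‖y p.1 p.2‖ ^ 2) fun i _ i' _ h =>
      congrArg (fun p : Σ L, Fib J L => p.2.1) h]
  refine Finset.sum_le_sum_of_subset_of_nonneg ?_ fun _ _ _ => sq_nonneg _
  intro p hp
  obtain ⟨i, hi, rfl⟩ := Finset.mem_image.1 hp
  exact Finset.mem_sigma.2 ⟨Finset.mem_image_of_mem _ hi, Finset.mem_univ _⟩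

/-- Grouping by levels. -/
def toLev (J : Fin 3) : HSp →L[ℝ] HLev J :=
  LinearMap.mkContinuous
    { toFun := fun x => ⟨fun L => WithLp.toLp 2 fun i : Fib J L => x i.1,
        memℓp_two (toLev_sum_sq J x)⟩
      map_add' := fun x y => by ext L i; rfl
      map_smul' := fun r x => by ext L i; rfl }
    1 fun x => norm_le_of_sum_sq (by positivity) fun s =>
      (toLev_sum_sq J x s).trans_eq (by rw [one_mul])

/-- Ungrouping. -/
def ofLev (J : Fin 3) : HLev J →L[ℝ] HSp :=
  LinearMap.mkContinuous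
    { toFun := fun y => ⟨fun i => y (i.blk.level J) ⟨i, rfl⟩, memℓp_two (ofLev_sum_sq J y)⟩
      map_add' := fun x y => by ext i; rfl
      map_smul' := fun r x => by ext i; rfl }
    1 fun y => norm_le_of_sum_sq (by positivity) fun s =>
      (ofLev_sum_sq J y s).trans_eq (by rw [one_mul])

@[simp] theorem toLev_apply (J : Fin 3) (x : HSp) (L : ℕ × ℕ) (i : Fib J L) :
    toLev J x L i = x i.1 := rfl

@[simp] theorem ofLev_apply (J : Fin 3) (y : HLev J) (i : St) :
    ofLev J y i = y (i.blk.level J) ⟨i, rfl⟩ := rfl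

theorem ofLev_toLev (J : Fin 3) (x : HSp) : ofLev J (toLev J x) = x := by
  ext i; rfl

theorem toLev_ofLev (J : Fin 3) (y : HLev J) : toLev J (ofLev J y) = y := by
  ext L ⟨i, hi⟩
  subst hi
  rfl

theorem norm_toLev_le (J : Fin 3) : ‖toLev J‖ ≤ 1 := LinearMap.mkContinuous_norm_le _ zero_le_one _

theorem norm_ofLev_le (J : Fin 3) : ‖ofLev J‖ ≤ 1 := LinearMap.mkContinuous_norm_le _ zero_le_one _

/-- A segment on grouped coefficients, read on `HSp`. -/
def Seg.ofLevels {J : Fin 3} (S : Seg (HLev J)) : Seg HSp where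
  Q := (ofLev J).comp (S.Q.comp (toLev J))
  B := (ofLev J).comp (S.B.comp (toLev J))
  C := (ofLev J).comp (S.C.comp (toLev J))
  D := (ofLev J).comp (S.D.comp (toLev J))

theorem norm_ofLev_comp_le (J : Fin 3) (X : HLev J →L[ℝ] HLev J) :
    ‖(ofLev J).comp (X.comp (toLev J))‖ ≤ ‖X‖ := by
  refine (ContinuousLinearMap.opNorm_comp_le _ _).trans ?_
  calc ‖ofLev J‖ * ‖X.comp (toLev J)‖ ≤ 1 * (‖X‖ * 1) :=
        mul_le_mul (norm_ofLev_le J) ((ContinuousLinearMap.opNorm_comp_le _ _).trans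
          (mul_le_mul_of_nonneg_left (norm_toLev_le J) (norm_nonneg _))) (norm_nonneg _) zero_le_one
    _ = ‖X‖ := by ring

theorem Seg.norm_ofLevels_le {J : Fin 3} (S : Seg (HLev J)) :
    ‖S.ofLevels.Q‖ ≤ ‖S.Q‖ ∧ ‖S.ofLevels.B‖ ≤ ‖S.B‖ ∧ ‖S.ofLevels.C‖ ≤ ‖S.C‖ ∧
      ‖S.ofLevels.D‖ ≤ ‖S.D‖ :=
  ⟨norm_ofLev_comp_le J _, norm_ofLev_comp_le J _, norm_ofLev_comp_le J _, norm_ofLev_comp_le J _⟩

theorem Seg.ofLevels_sol_iff {J : Fin 3} (S : Seg (HLev J)) (ul wl ur wr : HSp) :
    S.ofLevels.Sol ul wl ur wr ↔ S.Sol (toLev J ul) (toLev J wl) (toLev J ur) (toLev J wr) := by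
  constructor
  · rintro ⟨h1, h2⟩
    constructor
    · simp [h1, Seg.ofLevels, toLev_ofLev]
    · simp [h2, Seg.ofLevels, toLev_ofLev]
  · rintro ⟨h1, h2⟩
    constructor
    · simpa [Seg.ofLevels, ofLev_toLev] using congrArg (ofLev J) h1
    · simpa [Seg.ofLevels, ofLev_toLev] using congrArg (ofLev J) h2

/-! ### Gains -/

theorem integral_exp_prim_le_len {z : ℝ → ℝ} (hz : Continuous z) {t b : ℝ} (htb : t ≤ b)
    (h : ∀ s ∈ Icc t b, 0 ≤ z s) : ∫ s in t..b, Real.exp (-Ode.prim z t s) ≤ b - t := by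
  have : ∫ s in t..b, Real.exp (-Ode.prim z t s) ≤ ∫ _ in t..b, (1 : ℝ) := by
    refine intervalIntegral.integral_mono_on htb
      ((Real.continuous_exp.comp (Ode.continuous_prim hz t).neg).intervalIntegrable _ _)
      (continuous_const.intervalIntegrable _ _) fun s hs => Real.exp_le_one_iff.2 ?_
    have := Ode.prim_le_prim (a := t) (k := 0) hz (fun r hr => h r ⟨hr.1, hr.2.trans hs.2⟩) hs.1
    simp only [Ode.prim_self, zero_mul, add_zero] at this
    linarith
  simpa using this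

theorem integral_exp_prim_le_inv {z : ℝ → ℝ} (hz : Continuous z) {t b m : ℝ} (htb : t ≤ b)
    (hm : 0 < m) (h : ∀ s ∈ Icc t b, m ≤ z s) : ∫ s in t..b, Real.exp (-Ode.prim z t s) ≤ 1 / m := by
  have := Ode.abs_coefB_le (a := t) (b := b) (z := fun _ => 0) hz continuous_const htb hm
    (fun s hs => by simpa using h s hs)
  simp only [Ode.coefB, abs_neg, add_zero] at this
  have h0 : ∀ s, Ode.prim (fun _ => (0 : ℝ)) t s = 0 := fun s => by simp [Ode.prim]
  simp only [h0, neg_zero, Real.exp_zero, one_mul] at this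
  exact (le_abs_self _).trans this

/-! ### Dependence on the perturbation -/

namespace PicardPert

variable {G : Type*} {E : G → Type*} [∀ g, NormedAddCommGroup (E g)] [∀ g, NormedSpace ℝ (E g)]
  [∀ g, CompleteSpace (E g)] {S : PicardBase G}

/-- The Picard operator is linear in the perturbation. -/
theorem step_sub (P P' D : PicardPert S E) (hnb : ∀ g, P'.nb g = P.nb g ∧ D.nb g = P.nb g)
    (hD : ∀ t g h, D.P t g h = P.P t g h - P'.P t g h) : P.step - P'.step = D.step := by
  refine ContinuousLinearMap.ext fun x => ?_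
  ext g t
  have hf : P.force x g = fun s => (1 : ℝ) • D.force x g s + P'.force x g s := by
    funext s
    simp only [force, (hnb g).1, (hnb g).2, hD, sub_apply, one_smul, Finset.sum_sub_distrib]
    abel
  have hd : P.devPert x g = fun s => (1 : ℝ) • D.devPert x g s + P'.devPert x g s := by
    funext s
    simp only [devPert, hf]
    simpa using kerW_add_smul (a := S.a) (W := (0 : E g)) (W' := 0) S.cont_c (S.cont_z g) 1
      (D.continuous_force x g) (P'.continuous_force x g) s
  have hy := kerY_add_smul (b := S.b) (U := (0 : E g)) (U' := 0) (S.cont_z g) 1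
    (D.continuous_devPert x g) (P'.continuous_devPert x g) t
  simp only [one_smul, add_zero] at hy hd
  show P.step x g t - P'.step x g t = D.step x g t
  simp only [step_apply, hd, hy]
  abel

/-- `Q` is Lipschitz in the perturbation. -/
theorem norm_seg_Q_sub_le_of_step (P P' : PicardPert S E) (hθ : P.θ ≤ 1 / 2) (hθ' : P'.θ ≤ 1 / 2) :
    ‖P.seg.Q - P'.seg.Q‖ ≤ 4 * ‖P.step - P'.step‖ := by
  refine ContinuousLinearMap.opNorm_le_bound _ (by positivity) fun x => ?_
  show ‖S.evA (neumann P.step (S.baseU x)) - S.evA (neumann P'.step (S.baseU x))‖ ≤ _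
  rw [← map_sub]
  refine (S.norm_evA_apply_le _).trans ?_
  set y := S.baseU x
  have e : neumann P.step y - neumann P'.step y
      = neumann P.step ((P.step - P'.step) (neumann P'.step y)) := by
    have h1 := P.norm_step_le
    have h2 := P'.norm_step_le
    have hy : (1 - P.step) (neumann P'.step y) + (P.step - P'.step) (neumann P'.step y) = y := by
      conv_rhs => rw [← neumann_mul (T := P'.step) (by linarith) y]
      simp only [sub_apply, one_apply_eq_self]
      abel
    have := congrArg (neumann P.step) hy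
    rw [map_add, neumann_mul' (by linarith)] at this
    rw [← this]
    abel
  rw [e]
  calc ‖neumann P.step ((P.step - P'.step) (neumann P'.step y))‖
      ≤ 2 * (‖P.step - P'.step‖ * (2 * ‖y‖)) :=
        (P.norm_sol_le hθ _).trans (mul_le_mul_of_nonneg_left
          (((P.step - P'.step).le_opNorm _).trans
            (mul_le_mul_of_nonneg_left (P'.norm_sol_le hθ' _) (norm_nonneg _))) zero_le_two)
    _ ≤ 4 * ‖P.step - P'.step‖ * ‖x‖ := by
        have := S.norm_baseU_apply_le x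
        nlinarith [norm_nonneg (P.step - P'.step)]

end PicardPert

end

end Vale.Agent.P225
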