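import Vale.Agent.P225.Space
import Vale.Agent.P225.Seg.Chain
import Vale.Agent.P225.Ode.Slope

/-!
P225, module 9 (helper2): segments that are diagonal in the global basis.

A family of slopes `z i` (one per state) gives a segment on `[a,b]`: the deviation coordinate of
state `i` is `(u' - z i a * u) / mu` on the left and `(u' - ρ i * u) / mu` on the right.
-/

open Set

namespace Vale.Agent.P225

noncomputable section

theorem abs_le_of_nonneg_bound {x K : ℝ} (h : |x| ≤ K) : 0 ≤ K := (abs_nonneg x).trans h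

/-- Bounded coefficient families of a diagonal segment. -/
structure DiagCoef where
  q : St → ℝ
  b : St → ℝ
  c : St → ℝ
  d : St → ℝ
  Kq : ℝ
  Kb : ℝ
  Kc : ℝ
  Kd : ℝ
  Kq_nonneg : 0 ≤ Kq
  Kb_nonneg : 0 ≤ Kb
  Kc_nonneg : 0 ≤ Kc
  Kd_nonneg : 0 ≤ Kd
  q_le : ∀ i, |q i| ≤ Kq
  b_le : ∀ i, |b i| ≤ Kb
  c_le : ∀ i, |c i| ≤ Kc
  d_le : ∀ i, |d i| ≤ Kd

namespace DiagCoef

/-- The segment of the coefficient families. -/
def seg (P : DiagCoef) : Seg HSp where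
  Q := diagOp P.q P.Kq P.Kq_nonneg P.q_le
  B := diagOp P.b P.Kb P.Kb_nonneg P.b_le
  C := diagOp P.c P.Kc P.Kc_nonneg P.c_le
  D := diagOp P.d P.Kd P.Kd_nonneg P.d_le

@[simp] theorem seg_Q (P : DiagCoef) (x : HSp) (i : St) : P.seg.Q x i = P.q i * x i := rfl
@[simp] theorem seg_B (P : DiagCoef) (x : HSp) (i : St) : P.seg.B x i = P.b i * x i := rfl
@[simp] theorem seg_C (P : DiagCoef) (x : HSp) (i : St) : P.seg.C x i = P.c i * x i := rfl
@[simp] theorem seg_D (P : DiagCoef) (x : HSp) (i : St) : P.seg.D x i = P.d i * x i := rfl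

theorem norm_Q (P : DiagCoef) : ‖P.seg.Q‖ ≤ P.Kq :=
  norm_diagOp_le P.q P.Kq P.Kq_nonneg P.q_le
theorem norm_B (P : DiagCoef) : ‖P.seg.B‖ ≤ P.Kb :=
  norm_diagOp_le P.b P.Kb P.Kb_nonneg P.b_le
theorem norm_C (P : DiagCoef) : ‖P.seg.C‖ ≤ P.Kc :=
  norm_diagOp_le P.c P.Kc P.Kc_nonneg P.c_le
theorem norm_D (P : DiagCoef) : ‖P.seg.D‖ ≤ P.Kd :=
  norm_diagOp_le P.d P.Kd P.Kd_nonneg P.d_le

theorem C_eq_zero (P : DiagCoef) (h : ∀ i, P.c i = 0) : P.seg.C = 0 := by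
  ext x i
  simp [h i]

/-- Componentwise form of a solution. -/
theorem sol_iff (P : DiagCoef) (ul wl ur wr : HSp) :
    P.seg.Sol ul wl ur wr ↔
      ∀ i, ul i = P.q i * ur i + P.b i * wl i ∧ wr i = P.c i * ur i + P.d i * wl i := by
  constructor
  · rintro ⟨h1, h2⟩ i
    constructor
    · rw [h1]; simp
    · rw [h2]; simp
  · intro h
    constructor <;> ext i
    · simpa using (h i).1
    · simpa using (h i).2

end DiagCoef

/-- Hypotheses on the slopes of a diagonal segment on `[a, b]` with drift `c` and right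
references `ρ`. -/
structure SlopeFam (a b : ℝ) (c : ℝ → ℝ) (z : St → ℝ → ℝ) (ρ : St → ℝ) (k δ : ℝ) : Prop where
  le : a ≤ b
  k_pos : 0 < k
  δ_nonneg : 0 ≤ δ
  cont_c : Continuous c
  cont_z : ∀ i, Continuous (z i)
  z_nonneg : ∀ i, ∀ t ∈ Icc a b, 0 ≤ z i t
  c_nonneg : ∀ t ∈ Icc a b, 0 ≤ c t
  gain : ∀ i, ∀ t ∈ Icc a b, k * i.blk.mu ≤ c t + 2 * z i t
  close : ∀ i, |z i b - ρ i| ≤ δ * i.blk.mu

namespace SlopeFam

variable {a b k δ : ℝ} {c : ℝ → ℝ} {z : St → ℝ → ℝ} {ρ : St → ℝ}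

/-- Coefficients of a slope family. -/
def coef (h : SlopeFam a b c z ρ k δ) : DiagCoef where
  q i := Ode.coefQ (z i) a b
  b i := i.blk.mu * Ode.coefB c (z i) a b
  c i := (z i b - ρ i) / i.blk.mu
  d i := Ode.coefD c (z i) a b
  Kq := 1
  Kb := 1 / k
  Kc := δ
  Kd := 1
  Kq_nonneg := zero_le_one
  Kb_nonneg := (div_pos one_pos h.k_pos).le
  Kc_nonneg := h.δ_nonneg
  Kd_nonneg := zero_le_one
  q_le i := by
    rw [abs_of_pos (Ode.coefQ_pos _ _ _)]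
    simpa using Ode.coefQ_le (h.cont_z i) h.le (h.z_nonneg i)
  b_le i := by
    have hμ : 0 < i.blk.mu := lt_of_lt_of_le one_pos (Blk.one_le_mu _)
    have := Ode.abs_coefB_le h.cont_c (h.cont_z i) h.le (mul_pos h.k_pos hμ) (h.gain i)
    rw [abs_mul, abs_of_pos hμ]
    calc i.blk.mu * |Ode.coefB c (z i) a b| ≤ i.blk.mu * (1 / (k * i.blk.mu)) := by gcongr
      _ = 1 / k := by field_simp
  c_le i := by
    have hμ : 0 < i.blk.mu := lt_of_lt_of_le one_pos (Blk.one_le_mu _)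
    rw [abs_div, abs_of_pos hμ, div_le_iff₀ hμ]
    exact h.close i
  d_le i := by
    rw [abs_of_pos (Ode.coefD_pos _ _ _ _)]
    have := Ode.coefD_le (k := 0) h.cont_c (h.cont_z i) h.le
      fun t ht => by linarith [h.z_nonneg i t ht, h.c_nonneg t ht]
    simpa using this

theorem coef_q (h : SlopeFam a b c z ρ k δ) (i : St) : h.coef.q i = Ode.coefQ (z i) a b := rfl

theorem coef_d (h : SlopeFam a b c z ρ k δ) (i : St) : h.coef.d i = Ode.coefD c (z i) a b := rfl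

/-- An exactly matched right reference gives `C = 0`. -/
theorem C_eq_zero (h : SlopeFam a b c z ρ k δ) (he : ∀ i, z i b = ρ i) : h.coef.seg.C = 0 :=
  DiagCoef.C_eq_zero _ fun i => by simp [coef, he i]

/-- A uniform lower bound on the slopes damps `Q`. -/
theorem norm_Q_le (h : SlopeFam a b c z ρ k δ) {m : ℝ} (hm : ∀ i, ∀ t ∈ Icc a b, m ≤ z i t) :
    ‖h.coef.seg.Q‖ ≤ Real.exp (-(m * (b - a))) :=
  norm_diagOp_le _ _ (Real.exp_pos _).le (fun i => by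
    show |Ode.coefQ (z i) a b| ≤ _
    rw [abs_of_pos (Ode.coefQ_pos _ _ _)]
    exact Ode.coefQ_le (h.cont_z i) h.le (hm i))

/-- A uniform lower bound on the drift damps `D`. -/
theorem norm_D_le (h : SlopeFam a b c z ρ k δ) {m : ℝ} (hm : ∀ t ∈ Icc a b, m ≤ c t) :
    ‖h.coef.seg.D‖ ≤ Real.exp (-(m * (b - a))) :=
  norm_diagOp_le _ _ (Real.exp_pos _).le (fun i => by
    show |Ode.coefD c (z i) a b| ≤ _
    rw [abs_of_pos (Ode.coefD_pos _ _ _ _)]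
    exact Ode.coefD_le h.cont_c (h.cont_z i) h.le
      fun t ht => by linarith [hm t ht, h.z_nonneg i t ht])

/-- Value of state `i` along a solution with the given two-point data. -/
def value (_ : SlopeFam a b c z ρ k δ) (ur wl : HSp) (i : St) (t : ℝ) : ℝ :=
  Ode.uSol c (z i) a b (ur i) (i.blk.mu * wl i) t

/-- Derivative of `value`. -/
def deriv' (h : SlopeFam a b c z ρ k δ) (ur wl : HSp) (i : St) (t : ℝ) : ℝ :=
  z i t * h.value ur wl i t + Ode.devSol c (z i) a (i.blk.mu * wl i) t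

theorem hasDerivAt_value (h : SlopeFam a b c z ρ k δ) (ur wl : HSp) (i : St) (t : ℝ) :
    HasDerivAt (h.value ur wl i) (h.deriv' ur wl i t) t :=
  Ode.hasDerivAt_uSol h.cont_c (h.cont_z i) _ _ _ _ t

theorem hasDerivAt_deriv' (h : SlopeFam a b c z ρ k δ) (ur wl : HSp) (i : St) {t l : ℝ}
    (hz : ∃ z', HasDerivAt (z i) z' t ∧ z' + z i t ^ 2 + c t * z i t = l) :
    HasDerivAt (h.deriv' ur wl i) (l * h.value ur wl i t - c t * h.deriv' ur wl i t) t := by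
  obtain ⟨z', h1, h2⟩ := hz
  exact Ode.hasDerivAt_deriv_uSol h.cont_c (h.cont_z i) h1 h2

/-- The two-point data of the segment are those of `value`. -/
theorem sol_value (h : SlopeFam a b c z ρ k δ) {ul wl ur wr : HSp}
    (hs : h.coef.seg.Sol ul wl ur wr) (i : St) :
    h.value ur wl i a = ul i ∧ h.value ur wl i b = ur i ∧
      h.deriv' ur wl i a - z i a * ul i = i.blk.mu * wl i ∧
      h.deriv' ur wl i b - ρ i * ur i = i.blk.mu * wr i := by
  obtain ⟨h1, h2⟩ := (DiagCoef.sol_iff _ _ _ _ _).1 hs i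
  have hμ : i.blk.mu ≠ 0 := (lt_of_lt_of_le one_pos (Blk.one_le_mu _)).ne'
  have ha : h.value ur wl i a = ul i := by
    rw [h1]
    simp only [value, coef, Ode.uSol_left (h.cont_z i)]
    ring
  have hb : h.value ur wl i b = ur i := Ode.uSol_self _ _ _ _ _ _
  refine ⟨ha, hb, ?_, ?_⟩
  · simp only [deriv', ha, Ode.devSol_self]
    ring
  · rw [h2]
    simp only [deriv', hb, coef, Ode.devSol_right]
    field_simp
    ring

/-- Conversely, every solution of the mode equation gives the segment relations. -/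
theorem sol_of_ode (h : SlopeFam a b c z ρ k δ) {l : St → ℝ → ℝ}
    (hz : ∀ i, ∀ t ∈ Icc a b, ∃ z', HasDerivAt (z i) z' t ∧ z' + z i t ^ 2 + c t * z i t = l i t)
    {u du : St → ℝ → ℝ} (hu : ∀ i, ∀ t ∈ Icc a b, HasDerivAt (u i) (du i t) t)
    (hdu : ∀ i, ∀ t ∈ Icc a b, HasDerivAt (du i) (l i t * u i t - c t * du i t) t)
    {ul wl ur wr : HSp} (h1 : ∀ i, u i a = ul i) (h2 : ∀ i, u i b = ur i)
    (h3 : ∀ i, du i a - z i a * ul i = i.blk.mu * wl i)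
    (h4 : ∀ i, du i b - ρ i * ur i = i.blk.mu * wr i) :
    h.coef.seg.Sol ul wl ur wr := by
  rw [DiagCoef.sol_iff]
  intro i
  have hμ : i.blk.mu ≠ 0 := (lt_of_lt_of_le one_pos (Blk.one_le_mu _)).ne'
  obtain ⟨p, q⟩ := Ode.two_point h.cont_c (h.cont_z i) h.le (hz i) (hu i) (hdu i)
  rw [h1 i, h2 i, h3 i] at p
  rw [h1 i, h2 i, h3 i] at q
  constructor
  · rw [p]; simp only [coef]; ring
  · simp only [coef]
    field_simp
    linear_combination q - h4 i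

end SlopeFam

/-! ### Level locality -/

theorem levelLocal_diagOp (J : Fin 3) (g : St → ℝ) (K : ℝ) (hK : 0 ≤ K) (hg : ∀ i, |g i| ≤ K) :
    LevelLocal J (diagOp g K hK hg) := by
  intro f K' hK' hf
  ext x i
  simp [mul_left_comm]

namespace LevelLocal

variable {J : Fin 3} {S T : HSp →L[ℝ] HSp}

protected theorem comp (hS : LevelLocal J S) (hT : LevelLocal J T) : LevelLocal J (S.comp T) := by
  intro f K hK hf
  rw [ContinuousLinearMap.comp_assoc, hT f K hK hf, ← ContinuousLinearMap.comp_assoc,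
    hS f K hK hf, ContinuousLinearMap.comp_assoc]

protected theorem add (hS : LevelLocal J S) (hT : LevelLocal J T) : LevelLocal J (S + T) := by
  intro f K hK hf
  rw [ContinuousLinearMap.add_comp, ContinuousLinearMap.comp_add, hS f K hK hf, hT f K hK hf]

theorem neumann (hT : LevelLocal J T) (h : ‖T‖ < 1) : LevelLocal J (neumann T) := by
  intro f K hK hf
  ext1 x
  set F := diagOp (fun i : St => f (i.blk.level J)) K hK hf
  have e : (1 - T) (F (Vale.Agent.P225.neumann T x)) = F x := by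
    have hc : T (F (Vale.Agent.P225.neumann T x)) = F (T (Vale.Agent.P225.neumann T x)) :=
      congrArg (fun L : HSp →L[ℝ] HSp => L (Vale.Agent.P225.neumann T x)) (hT f K hK hf)
    have hn := congrArg F (neumann_mul h x)
    simp only [sub_apply, one_apply_eq_self, map_sub] at hn ⊢
    rw [hc]
    exact hn
  have := congrArg (Vale.Agent.P225.neumann T) e
  rw [neumann_mul' h] at this
  exact this.symm

end LevelLocal

/-- All four operators of a segment are level-local. -/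
structure SegLocal (J : Fin 3) (S : Seg HSp) : Prop where
  Q : LevelLocal J S.Q
  B : LevelLocal J S.B
  C : LevelLocal J S.C
  D : LevelLocal J S.D

theorem DiagCoef.segLocal (P : DiagCoef) (J : Fin 3) : SegLocal J P.seg :=
  ⟨levelLocal_diagOp J P.q P.Kq P.Kq_nonneg P.q_le, levelLocal_diagOp J P.b P.Kb P.Kb_nonneg P.b_le,
    levelLocal_diagOp J P.c P.Kc P.Kc_nonneg P.c_le, levelLocal_diagOp J P.d P.Kd P.Kd_nonneg P.d_le⟩

theorem SegLocal.conj {J : Fin 3} {S : Seg HSp} {Uu Vu Uw Vw : HSp →L[ℝ] HSp} (hS : SegLocal J S)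
    (h1 : LevelLocal J Uu) (h2 : LevelLocal J Vu) (h3 : LevelLocal J Uw) (h4 : LevelLocal J Vw) :
    SegLocal J (S.conj Uu Vu Uw Vw) :=
  ⟨h1.comp (hS.Q.comp h2), h1.comp (hS.B.comp h4), h3.comp (hS.C.comp h2), h3.comp (hS.D.comp h4)⟩

theorem SegLocal.comp {J : Fin 3} {S T : Seg HSp} (hS : SegLocal J S) (hT : SegLocal J T)
    (h : ‖T.B.comp S.C‖ < 1) : SegLocal J (S.comp T) := by
  have hN := (hT.B.comp hS.C).neumann h
  exact ⟨hS.Q.comp (hN.comp hT.Q), hS.B.add (hS.Q.comp (hN.comp (hT.B.comp hS.D))),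
    hT.C.add (hT.D.comp (hS.C.comp (hN.comp hT.Q))),
    hT.D.comp (hS.D.add (hS.C.comp (hN.comp (hT.B.comp hS.D))))⟩

/-! ### Norms of conjugation and concatenation -/

section Norms

variable {H : Type*} [NormedAddCommGroup H] [NormedSpace ℝ H]

theorem norm_comp₃_le {U X V : H →L[ℝ] H} {M K : ℝ} (hU : ‖U‖ ≤ M) (hX : ‖X‖ ≤ K)
    (hV : ‖V‖ ≤ M) : ‖U.comp (X.comp V)‖ ≤ M * K * M := by
  have hM : 0 ≤ M := (norm_nonneg _).trans hU
  have hK : 0 ≤ K := (norm_nonneg _).trans hX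
  refine (ContinuousLinearMap.opNorm_comp_le _ _).trans ?_
  rw [mul_assoc]
  exact mul_le_mul hU ((ContinuousLinearMap.opNorm_comp_le _ _).trans
    (mul_le_mul hX hV (norm_nonneg _) hK)) (norm_nonneg _) hM

theorem Seg.norm_conj_le (S : Seg H) {Uu Vu Uw Vw : H →L[ℝ] H} {M : ℝ} (h1 : ‖Uu‖ ≤ M)
    (h2 : ‖Vu‖ ≤ M) (h3 : ‖Uw‖ ≤ M) (h4 : ‖Vw‖ ≤ M) :
    ‖(S.conj Uu Vu Uw Vw).Q‖ ≤ M * ‖S.Q‖ * M ∧ ‖(S.conj Uu Vu Uw Vw).B‖ ≤ M * ‖S.B‖ * M ∧
      ‖(S.conj Uu Vu Uw Vw).C‖ ≤ M * ‖S.C‖ * M ∧ ‖(S.conj Uu Vu Uw Vw).D‖ ≤ M * ‖S.D‖ * M :=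
  ⟨norm_comp₃_le h1 le_rfl h2, norm_comp₃_le h1 le_rfl h4, norm_comp₃_le h3 le_rfl h2,
    norm_comp₃_le h3 le_rfl h4⟩

variable [CompleteSpace H]

theorem Seg.norm_comp_le (S T : Seg H) (h : ‖T.B‖ * ‖S.C‖ ≤ 1 / 2) :
    ‖(S.comp T).Q‖ ≤ 2 * ‖S.Q‖ * ‖T.Q‖ ∧
      ‖(S.comp T).B‖ ≤ ‖S.B‖ + 2 * ‖S.Q‖ * ‖T.B‖ * ‖S.D‖ ∧
      ‖(S.comp T).C‖ ≤ ‖T.C‖ + 2 * ‖T.D‖ * ‖S.C‖ * ‖T.Q‖ ∧
      ‖(S.comp T).D‖ ≤ 2 * ‖T.D‖ * ‖S.D‖ := by
  have hTS : ‖T.B.comp S.C‖ ≤ 1 / 2 := (ContinuousLinearMap.opNorm_comp_le _ _).trans h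
  have hN : ‖neumann (T.B.comp S.C)‖ ≤ 2 :=
    ContinuousLinearMap.opNorm_le_bound _ (by norm_num) fun x =>
      (norm_neumann_le (by linarith) x).trans (by
        rw [div_le_iff₀ (by linarith)]
        nlinarith [norm_nonneg x, norm_nonneg (T.B.comp S.C)])
  set N := neumann (T.B.comp S.C) with hNdef
  have hNX : ∀ X : H →L[ℝ] H, ‖N.comp X‖ ≤ 2 * ‖X‖ := fun X =>
    (ContinuousLinearMap.opNorm_comp_le _ _).trans (by gcongr)
  have hBD : ‖N.comp (T.B.comp S.D)‖ ≤ 2 * (‖T.B‖ * ‖S.D‖) := (hNX _).trans (by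
    gcongr; exact ContinuousLinearMap.opNorm_comp_le _ _)
  refine ⟨?_, ?_, ?_, ?_⟩
  · refine (ContinuousLinearMap.opNorm_comp_le _ _).trans ?_
    calc ‖S.Q‖ * ‖N.comp T.Q‖ ≤ ‖S.Q‖ * (2 * ‖T.Q‖) := by gcongr; exact hNX _
      _ = 2 * ‖S.Q‖ * ‖T.Q‖ := by ring
  · refine (norm_add_le _ _).trans (add_le_add le_rfl ?_)
    refine (ContinuousLinearMap.opNorm_comp_le _ _).trans ?_
    calc ‖S.Q‖ * ‖N.comp (T.B.comp S.D)‖ ≤ ‖S.Q‖ * (2 * (‖T.B‖ * ‖S.D‖)) := by gcongr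
      _ = 2 * ‖S.Q‖ * ‖T.B‖ * ‖S.D‖ := by ring
  · refine (norm_add_le _ _).trans (add_le_add le_rfl ?_)
    calc ‖T.D.comp (S.C.comp (N.comp T.Q))‖ ≤ ‖T.D‖ * (‖S.C‖ * ‖N.comp T.Q‖) :=
          (ContinuousLinearMap.opNorm_comp_le _ _).trans
            (by gcongr; exact ContinuousLinearMap.opNorm_comp_le _ _)
      _ ≤ ‖T.D‖ * (‖S.C‖ * (2 * ‖T.Q‖)) := by gcongr; exact hNX _
      _ = 2 * ‖T.D‖ * ‖S.C‖ * ‖T.Q‖ := by ring
  · refine (ContinuousLinearMap.opNorm_comp_le _ _).trans ?_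
    have h1 : ‖S.C.comp (N.comp (T.B.comp S.D))‖ ≤ ‖S.D‖ := by
      calc ‖S.C.comp (N.comp (T.B.comp S.D))‖ ≤ ‖S.C‖ * (2 * (‖T.B‖ * ‖S.D‖)) :=
            (ContinuousLinearMap.opNorm_comp_le _ _).trans (by gcongr)
        _ = 2 * (‖T.B‖ * ‖S.C‖) * ‖S.D‖ := by ring
        _ ≤ 2 * (1 / 2) * ‖S.D‖ := by gcongr
        _ = ‖S.D‖ := by ring
    calc ‖T.D‖ * ‖S.D + S.C.comp (N.comp (T.B.comp S.D))‖ ≤ ‖T.D‖ * (‖S.D‖ + ‖S.D‖) := by
          gcongr; exact (norm_add_le _ _).trans (add_le_add le_rfl h1)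
      _ = 2 * ‖T.D‖ * ‖S.D‖ := by ring

end Norms

end

end Vale.Agent.P225
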