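import Vale.Agent.P225.Seg.Assoc
import Vale.Agent.P225.Loop.LoopData
import Vale.Agent.P225.Loop.LevelAlg

/-!
P225, CorrResponse (helper2): cutting a range of segments, the damping of a range which ends in
exact waits, and entries of level-local operators.
-/

open Finset

namespace Vale.Agent.P225

noncomputable section

section Range

variable {H : Type*} [NormedAddCommGroup H] [NormedSpace ℝ H] [CompleteSpace H]

/-- All ranges inside `[0, N]` have the bounds `K`, `δ`. -/
def RangesBd (S : ℕ → Seg H) (N : ℕ) (K δ : ℝ) : Prop :=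
  ∀ l k, l + k ≤ N → Loop.SegBd K δ (segRange S l k)

theorem segRange_one (S : ℕ → Seg H) (i : ℕ) : segRange S i 1 = S i := Seg.comp_one _

theorem segRange_append {S : ℕ → Seg H} {N : ℕ} {K δ : ℝ} (hb : RangesBd S N K δ)
    (hKδ : K * δ ≤ 1 / 4) :
    ∀ k i k', i + k + k' ≤ N →
      segRange S i (k + k') = (segRange S i k).comp (segRange S (i + k) k')
  | 0, i, k', _ => by
      rw [Nat.zero_add, Nat.add_zero]
      exact (Seg.one_comp _).symm
  | k + 1, i, k', h => by
      have ih := segRange_append hb hKδ k (i + 1) k' (by omega)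
      have hi : Loop.SegBd K δ (S i) := segRange_one S i ▸ hb i 1 (by omega)
      have hA := hb (i + 1) k (by omega)
      have hB := hb (i + (k + 1)) k' (by omega)
      have hSA : Loop.SegBd K δ ((S i).comp (segRange S (i + 1) k)) := hb i (k + 1) (by omega)
      have hAB : Loop.SegBd K δ ((segRange S (i + 1) k).comp (segRange S (i + (k + 1)) k')) := by
        rw [show i + (k + 1) = i + 1 + k by omega, ← ih]
        exact hb (i + 1) (k + k') (by omega)
      have hlt : ∀ {A B : Seg H}, Loop.SegBd K δ A → Loop.SegBd K δ B → ‖B.B.comp A.C‖ < 1 := by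
        intro A B hA hB
        refine (ContinuousLinearMap.opNorm_comp_le _ _).trans_lt ?_
        calc ‖B.B‖ * ‖A.C‖ ≤ K * δ :=
              mul_le_mul hB.B hA.C (norm_nonneg _) ((norm_nonneg _).trans hB.B)
          _ < 1 := by linarith
      rw [show k + 1 + k' = (k + k') + 1 by omega]
      show (S i).comp (segRange S (i + 1) (k + k')) = _
      rw [ih, show i + 1 + k = i + (k + 1) by omega]
      exact (Seg.comp_assoc _ _ _ (hlt hi hA) (hlt hSA hB) (hlt hA hB) (hlt hi hAB)).symm

/-- A range is damped by the waits at its end. -/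
theorem segRange_damp {S : ℕ → Seg H} {N M n : ℕ} {K δ e : ℝ} (hb : RangesBd S N K δ)
    (hK : 1 ≤ K) (hKδ : K * δ ≤ 1 / 4) (hM : M + n ≤ N) (hC : (segRange S M n).C = 0)
    (hD : ‖(segRange S M n).D‖ ≤ e) :
    ∀ d, d ≤ M → ‖(segRange S (M - d) (n + d)).C‖ ≤ (5 * K ^ 3) ^ d * e ∧
      ‖(segRange S (M - d) (n + d)).D‖ ≤ (5 * K ^ 3) ^ d * e
  | 0, _ => by
      rw [Nat.sub_zero, Nat.add_zero, pow_zero, one_mul, hC, norm_zero]
      exact ⟨(norm_nonneg _).trans hD, hD⟩
  | d + 1, hd => by
      obtain ⟨hC', hD'⟩ := segRange_damp hb hK hKδ hM hC hD d (by omega)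
      have e1 : M - (d + 1) + 1 = M - d := by omega
      have hi : Loop.SegBd K δ (S (M - (d + 1))) := segRange_one S _ ▸ hb (M - (d + 1)) 1 (by omega)
      have hT := hb (M - d) (n + d) (by omega)
      show ‖((S (M - (d + 1))).comp (segRange S (M - (d + 1) + 1) (n + d))).C‖ ≤ _ ∧
        ‖((S (M - (d + 1))).comp (segRange S (M - (d + 1) + 1) (n + d))).D‖ ≤ _
      rw [e1]
      set T := segRange S (M - d) (n + d)
      set A := S (M - (d + 1))
      set x := (5 * K ^ 3) ^ d * e
      have hx : 0 ≤ x := (norm_nonneg _).trans hD'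
      have hK0 : 0 ≤ K := zero_le_one.trans hK
      have hN : ‖neumann (T.B.comp A.C)‖ ≤ 2 := norm_neumann_two
        ((ContinuousLinearMap.opNorm_comp_le _ _).trans
          ((mul_le_mul hT.B hi.C (norm_nonneg _) hK0).trans (by linarith)))
      have hδK : δ * K ≤ 1 := by linarith
      have hAC : ‖A.C‖ ≤ δ := hi.C
      have hgrow : x * (1 + 2 * K + 2 * K ^ 2) ≤ (5 * K ^ 3) ^ (d + 1) * e := by
        rw [show (5 * K ^ 3) ^ (d + 1) * e = x * (5 * K ^ 3) by simp only [x]; ring]
        refine mul_le_mul_of_nonneg_left ?_ hx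
        have h1 : K ≤ K ^ 3 := le_self_pow₀ hK (by norm_num)
        have h2 : K ^ 2 ≤ K ^ 3 := pow_le_pow_right₀ hK (by norm_num)
        linarith
      refine ⟨?_, ?_⟩
      · show ‖T.C + T.D.comp (A.C.comp ((neumann (T.B.comp A.C)).comp T.Q))‖ ≤ _
        refine (norm_add_le _ _).trans ((add_le_add hC' (d := x * (δ * (2 * K))) ?_).trans (le_trans ?_ hgrow))
        · refine ((ContinuousLinearMap.opNorm_comp_le _ _).trans (mul_le_mul hD'
            ((ContinuousLinearMap.opNorm_comp_le _ _).trans (mul_le_mul hAC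
              ((ContinuousLinearMap.opNorm_comp_le _ _).trans (mul_le_mul hN hT.Q (norm_nonneg _)
                zero_le_two)) (norm_nonneg _) ((norm_nonneg _).trans hAC))) (norm_nonneg _) hx))
        · have : x * (δ * (2 * K)) ≤ x * (2 * 1) :=
            mul_le_mul_of_nonneg_left (by linarith) hx
          nlinarith [mul_nonneg hx hK0, mul_nonneg hx (sq_nonneg K)]
      · show ‖T.D.comp (A.D + A.C.comp ((neumann (T.B.comp A.C)).comp (T.B.comp A.D)))‖ ≤ _
        refine ((ContinuousLinearMap.opNorm_comp_le _ _).trans (mul_le_mul hD'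
          ((norm_add_le _ _).trans (add_le_add hi.D (d := δ * (2 * (K * K))) ?_)) (norm_nonneg _) hx)).trans (le_trans ?_ hgrow)
        · exact (ContinuousLinearMap.opNorm_comp_le _ _).trans (mul_le_mul hAC
            ((ContinuousLinearMap.opNorm_comp_le _ _).trans (mul_le_mul hN
              ((ContinuousLinearMap.opNorm_comp_le _ _).trans (mul_le_mul hT.B hi.D (norm_nonneg _) hK0))
              (norm_nonneg _) zero_le_two)) (norm_nonneg _) ((norm_nonneg _).trans hAC))
        · refine mul_le_mul_of_nonneg_left ?_ hx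
          have : δ * (2 * (K * K)) ≤ 1 * (2 * K) := by
            calc δ * (2 * (K * K)) = δ * K * (2 * K) := by ring
              _ ≤ 1 * (2 * K) := mul_le_mul_of_nonneg_right hδK (by positivity)
          nlinarith

end Range

/-- Ranges of level-local segments are level-local. -/
theorem segRange_segLocal {S : ℕ → Seg HSp} {N : ℕ} {K δ : ℝ} (hb : RangesBd S N K δ)
    (hKδ : K * δ ≤ 1 / 4) :
    ∀ n i, i + n ≤ N → (∀ m, i ≤ m → m < i + n → SegLocal 0 (S m)) → SegLocal 0 (segRange S i n)
  | 0, _, _, _ => by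
      have h0 : LevelLocal 0 (0 : HSp →L[ℝ] HSp) := fun f K hK hf => by simp
      have h1 : LevelLocal 0 (1 : HSp →L[ℝ] HSp) := fun f K hK hf => by
        ext x; rfl
      exact ⟨h1, h0, h0, h1⟩
  | n + 1, i, h, hl => by
      have hi := segRange_one S i ▸ hb i 1 (by omega)
      have hT := hb (i + 1) n (by omega)
      refine (hl i le_rfl (by omega)).comp
        (segRange_segLocal hb hKδ n (i + 1) (by omega) fun m h1 h2 => hl m (by omega) (by omega)) ?_
      refine (ContinuousLinearMap.opNorm_comp_le _ _).trans_lt ?_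
      calc ‖(segRange S (i + 1) n).B‖ * ‖(S i).C‖ ≤ K * δ :=
            mul_le_mul hT.B hi.C (norm_nonneg _) ((norm_nonneg _).trans hT.B)
        _ < 1 := by linarith

namespace Loop

/-- Rows of a level-local operator on a finite union of levels. -/
theorem LevelLocal.apply_eq_sum {T : HSp →L[ℝ] HSp} (hT : LevelLocal 0 T) {W : Finset St}
    (hW : ∀ i ∈ W, ∀ k : St, k.blk.level 0 = i.blk.level 0 → k ∈ W) (w : HSp) {y : St} (hy : y ∈ W) :
    T w y = ∑ k ∈ W, w k * T (lp.single 2 k 1) y := by
  classical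
  set L := y.blk.level 0
  set w' : HSp := ∑ k ∈ W, w k • (lp.single 2 k 1 : HSp) with hw'
  have hc : ∀ v : HSp, T v y = T (levIncl 0 L (levProj 0 L v)) y := fun v => by
    have h := congrArg (fun u : LevSp 0 L => u ⟨y, rfl⟩) (LevelLocal.levProj_eq (L := L) hT v)
    simpa [levProj_apply] using h
  have hwy : ∀ i : St, i ∈ W → w' i = w i := fun i hi => by
    rw [hw', lp.coeFn_sum, Finset.sum_apply, Finset.sum_eq_single i]
    · simp
    · intro k _ hk
      simp [Pi.single_eq_of_ne (Ne.symm hk)]
    · exact fun h => absurd hi h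
  have e : levProj 0 L w' = levProj 0 L w := by
    ext i
    rw [levProj_apply, levProj_apply]
    exact hwy i.1 (hW y hy i.1 i.2)
  rw [hc w, ← e, ← hc w', hw', map_sum, lp.coeFn_sum, Finset.sum_apply]
  exact Finset.sum_congr rfl fun k _ => by simp

end Loop

end

end Vale.Agent.P225
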