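import Vale.Agent.P225.Seg.SecSeg
import Vale.Agent.P225.Loop.CorrFactor

/-!
P225, CorrResponse (helper2): restriction of second order families to lines, and their form in the
language of the corrector.
-/

namespace Vale.Agent.P225

noncomputable section

variable {X V : Type*} [NormedAddCommGroup X] [NormedSpace ℝ X] [NormedAddCommGroup V]
  [NormedSpace ℝ V] {r K : ℝ}

theorem norm_smul_line_le {x : X} (hx : ‖x‖ ≤ 1) {t : ℝ} (ht : ‖t‖ ≤ r) : ‖t • x‖ ≤ r := by
  rw [norm_smul]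
  exact (mul_le_of_le_one_right (norm_nonneg _) hx).trans ht

/-- Restriction to the line through `x`. -/
theorem SecOrd.line {f : X → V} {L : X →L[ℝ] V} (h : SecOrd r K f L) {x : X} (hx : ‖x‖ ≤ 1) :
    SecOrd r K (fun t : ℝ => f (t • x)) (L.comp (ContinuousLinearMap.toSpanSingleton ℝ x)) := by
  have hle : ∀ t : ℝ, ‖t • x‖ ≤ ‖t‖ := fun t => norm_smul_line_le hx le_rfl
  have hK := h.nonneg
  refine ⟨h.rad, h.rad_nonneg, ?_, fun t ht => h.bd _ (norm_smul_line_le hx ht),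
    fun p q hp hq => ?_⟩
  · refine ContinuousLinearMap.opNorm_le_bound _ hK fun t => ?_
    rw [ContinuousLinearMap.comp_apply, ContinuousLinearMap.toSpanSingleton_apply]
    exact (L.le_of_opNorm_le h.norm_lin _).trans (mul_le_mul_of_nonneg_left (hle t) hK)
  · rw [ContinuousLinearMap.comp_apply, ContinuousLinearMap.toSpanSingleton_apply, sub_smul]
    refine (h.rem _ _ (norm_smul_line_le hx hp) (norm_smul_line_le hx hq)).trans ?_
    rw [← sub_smul]
    gcongr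
    exacts [hle p, hle q, hle _]

theorem SegSec.line {H : Type*} [NormedAddCommGroup H] [NormedSpace ℝ H] {S : X → Seg H}
    (h : SegSec r K S) {x : X} (hx : ‖x‖ ≤ 1) : SegSec r K fun t : ℝ => S (t • x) := by
  obtain ⟨_, hQ⟩ := h.Q
  obtain ⟨_, hB⟩ := h.B
  obtain ⟨_, hC⟩ := h.C
  obtain ⟨_, hD⟩ := h.D
  exact ⟨⟨_, hQ.line hx⟩, ⟨_, hB.line hx⟩, ⟨_, hC.line hx⟩, ⟨_, hD.line hx⟩⟩

/-- A second order family is a family with linear part and quadratic remainder. -/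
theorem SecOrd.qlin {A : Type*} [NormedRing A] [NormedAlgebra ℝ A] {f : X → A} {L : X →L[ℝ] A}
    (h : SecOrd r K f L) : Loop.QLin r 0 K f (L : X →ₗ[ℝ] A) :=
  ⟨h.bd, fun v => L.le_of_opNorm_le h.norm_lin v, fun e e' he he' => by
    simpa using h.rem e e' he he'⟩

/-- The families of the corrector. -/
theorem SegSec.corrFam {S : X → Seg HSp} (h : SegSec r K S) {δ : ℝ}
    (hs : ∀ e, ‖e‖ ≤ r → ‖(S e).C‖ ≤ δ) : ∃ LQ LB LC LD, Loop.CorrFam r K δ S LQ LB LC LD := by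
  obtain ⟨_, hQ⟩ := h.Q
  obtain ⟨_, hB⟩ := h.B
  obtain ⟨_, hC⟩ := h.C
  obtain ⟨_, hD⟩ := h.D
  exact ⟨_, _, _, _, hQ.qlin, hB.qlin, hC.qlin, hD.qlin, hs⟩

end

end Vale.Agent.P225
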