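import Mathlib

/-!
P225: scattering form of a linear segment (helper29).  A segment maps the two-point data
(`u` at the right end, deviation `w` at the left end) to (`u` at the left end, `w` at the right end).
-/

namespace Vale.Agent.P225

noncomputable section

variable {H : Type*} [NormedAddCommGroup H] [NormedSpace ℝ H]

/-- Two-point data of a segment: `u_l = Q u_r + B w_l`, `w_r = C u_r + D w_l`. -/
@[ext] structure Seg (H : Type*) [NormedAddCommGroup H] [NormedSpace ℝ H] where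
  Q : H →L[ℝ] H
  B : H →L[ℝ] H
  C : H →L[ℝ] H
  D : H →L[ℝ] H

/-- A solution `(u_l, w_l, u_r, w_r)` of a segment. -/
def Seg.Sol (S : Seg H) (ul wl ur wr : H) : Prop :=
  ul = S.Q ur + S.B wl ∧ wr = S.C ur + S.D wl

variable [CompleteSpace H]

/-- `(1 - T)⁻¹` for `‖T‖ < 1`. -/
def neumann (T : H →L[ℝ] H) : H →L[ℝ] H := Ring.inverse (1 - T)

theorem isUnit_one_sub {T : H →L[ℝ] H} (h : ‖T‖ < 1) : IsUnit (1 - T) :=
  ⟨Units.oneSub T h, rfl⟩

theorem neumann_mul {T : H →L[ℝ] H} (h : ‖T‖ < 1) (x : H) :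
    (1 - T) (neumann T x) = x := by
  have := Ring.mul_inverse_cancel _ (isUnit_one_sub h)
  simpa [neumann, ContinuousLinearMap.mul_def] using congrArg (fun L : H →L[ℝ] H => L x) this

theorem neumann_mul' {T : H →L[ℝ] H} (h : ‖T‖ < 1) (x : H) :
    neumann T ((1 - T) x) = x := by
  have := Ring.inverse_mul_cancel _ (isUnit_one_sub h)
  simpa [neumann, ContinuousLinearMap.mul_def] using congrArg (fun L : H →L[ℝ] H => L x) this

theorem norm_neumann_le {T : H →L[ℝ] H} (h : ‖T‖ < 1) (x : H) :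
    ‖neumann T x‖ ≤ ‖x‖ / (1 - ‖T‖) := by
  have hy := neumann_mul h x
  set y := neumann T x
  have e : y = x + T y := by
    have : y - T y = x := by simpa using hy
    rw [← this]; abel
  have : ‖y‖ ≤ ‖x‖ + ‖T‖ * ‖y‖ := by
    calc ‖y‖ = ‖x + T y‖ := congrArg norm e
      _ ≤ ‖x‖ + ‖T y‖ := norm_add_le _ _
      _ ≤ ‖x‖ + ‖T‖ * ‖y‖ := by gcongr; exact T.le_opNorm y
  rw [le_div_iff₀ (by linarith)]
  nlinarith

/-- Backward map of a segment when the left data obey `w_l = R u_l`: `(1 - B R)⁻¹ Q`. -/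
def Seg.backMap (S : Seg H) (R : H →L[ℝ] H) : H →L[ℝ] H :=
  (neumann (S.B.comp R)).comp S.Q

/-- Forward slope map: `w_r = (C + D R (1 - B R)⁻¹ Q) u_r`. -/
def Seg.slopeMap (S : Seg H) (R : H →L[ℝ] H) : H →L[ℝ] H :=
  S.C + (S.D.comp R).comp (S.backMap R)

theorem Seg.sol_iff (S : Seg H) {R : H →L[ℝ] H} (h : ‖S.B.comp R‖ < 1) (ul ur wr : H) :
    S.Sol ul (R ul) ur wr ↔ ul = S.backMap R ur ∧ wr = S.slopeMap R ur := by
  constructor
  · rintro ⟨h1, h2⟩
    have e : (1 - S.B.comp R) ul = S.Q ur := by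
      simp [sub_eq_iff_eq_add, ← h1]
    have e' : ul = S.backMap R ur := by
      show ul = neumann (S.B.comp R) (S.Q ur)
      rw [← e, neumann_mul' h]
    refine ⟨e', ?_⟩
    simp [Seg.slopeMap, ← e', h2]
  · rintro ⟨h1, h2⟩
    have e : (1 - S.B.comp R) ul = S.Q ur := by
      rw [h1]; exact neumann_mul h _
    refine ⟨?_, ?_⟩
    · simpa [sub_eq_iff_eq_add] using e
    · simp [h2, Seg.slopeMap, h1]

theorem Seg.norm_backMap_le (S : Seg H) {R : H →L[ℝ] H} (h : ‖S.B.comp R‖ < 1) (x : H) :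
    ‖S.backMap R x‖ ≤ ‖S.Q‖ * ‖x‖ / (1 - ‖S.B.comp R‖) := by
  refine (norm_neumann_le h (S.Q x)).trans ?_
  have : 0 < 1 - ‖S.B.comp R‖ := by linarith
  gcongr
  exact S.Q.le_opNorm x

/-- The exact error identity: true backward map minus the ideal one (`R = 0`) is `B R` applied
to the true left value. -/
theorem Seg.backMap_sub (S : Seg H) {R : H →L[ℝ] H} (h : ‖S.B.comp R‖ < 1) (x : H) :
    S.backMap R x - S.Q x = S.B (R (S.backMap R x)) := by
  have e : (1 - S.B.comp R) (S.backMap R x) = S.Q x := neumann_mul h _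
  simp only [ContinuousLinearMap.sub_apply, ContinuousLinearMap.one_apply,
    ContinuousLinearMap.comp_apply] at e
  rw [← e]; abel

/-- Concatenation: `S₁` on the left, `S₂` on the right. -/
def Seg.comp (S₁ S₂ : Seg H) : Seg H :=
  let N := neumann (S₂.B.comp S₁.C)
  { Q := S₁.Q.comp (N.comp S₂.Q)
    B := S₁.B + S₁.Q.comp (N.comp (S₂.B.comp S₁.D))
    C := S₂.C + S₂.D.comp (S₁.C.comp (N.comp S₂.Q))
    D := S₂.D.comp (S₁.D + S₁.C.comp (N.comp (S₂.B.comp S₁.D))) }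

theorem Seg.comp_sol (S₁ S₂ : Seg H) (h : ‖S₂.B.comp S₁.C‖ < 1) {ul wl um wm ur wr : H}
    (h₁ : S₁.Sol ul wl um wm) (h₂ : S₂.Sol um wm ur wr) :
    (S₁.comp S₂).Sol ul wl ur wr := by
  obtain ⟨a1, a2⟩ := h₁
  obtain ⟨b1, b2⟩ := h₂
  have e : (1 - S₂.B.comp S₁.C) um = S₂.Q ur + S₂.B (S₁.D wl) := by
    have : um = S₂.Q ur + S₂.B (S₁.C um + S₁.D wl) := by rw [← a2, ← b1]
    simp only [map_add] at this
    simp only [ContinuousLinearMap.sub_apply, ContinuousLinearMap.one_apply,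
      ContinuousLinearMap.comp_apply]
    nth_rewrite 1 [this]
    abel
  have hm : um = neumann (S₂.B.comp S₁.C) (S₂.Q ur) +
      neumann (S₂.B.comp S₁.C) (S₂.B (S₁.D wl)) := by
    rw [← map_add, ← e, neumann_mul' h]
  constructor
  · simp [Seg.comp, a1, hm]; abel
  · simp [Seg.comp, b2, a2, hm]; abel

end

end Vale.Agent.P225
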