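import Vale.Agent.P225.Seg.Basic

/-!
P225, CorrResponse (helper2): concatenation of segments is associative and has units.
-/

namespace Vale.Agent.P225

noncomputable section

variable {H : Type*} [NormedAddCommGroup H] [NormedSpace ℝ H]

/-- A segment is determined by the outputs it gives to all inputs. -/
theorem Seg.ext_sol {S T : Seg H} (h : ∀ ul wl ur wr, S.Sol ul wl ur wr → T.Sol ul wl ur wr) :
    S = T := by
  have e : ∀ ur wl, S.Q ur + S.B wl = T.Q ur + T.B wl ∧ S.C ur + S.D wl = T.C ur + T.D wl :=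
    fun ur wl => h _ wl ur _ ⟨rfl, rfl⟩
  obtain ⟨Q, B, C, D⟩ := S
  obtain ⟨Q', B', C', D'⟩ := T
  congr 1 <;> refine ContinuousLinearMap.ext fun x => ?_
  · simpa using (e x 0).1
  · simpa using (e 0 x).1
  · simpa using (e x 0).2
  · simpa using (e 0 x).2

variable [CompleteSpace H]

/-- A solution of a concatenation has states at the joint. -/
theorem Seg.exists_mid (S T : Seg H) (h : ‖T.B.comp S.C‖ < 1) {ul wl ur wr : H}
    (hs : (S.comp T).Sol ul wl ur wr) :
    ∃ um wm, S.Sol ul wl um wm ∧ T.Sol um wm ur wr := by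
  set N := neumann (T.B.comp S.C)
  set um := N (T.Q ur + T.B (S.D wl))
  set wm := S.C um + S.D wl
  have hT : um = T.Q ur + T.B wm := by
    have := neumann_mul h (T.Q ur + T.B (S.D wl))
    simp only [sub_apply, one_apply_eq_self, ContinuousLinearMap.comp_apply] at this
    show um = T.Q ur + T.B (S.C um + S.D wl)
    rw [map_add, ← add_assoc, add_right_comm, ← this]
    abel
  obtain ⟨h1, h2⟩ := S.comp_sol T h (ul := S.Q um + S.B wl) (wl := wl) (um := um) (wm := wm)
    (ur := ur) (wr := T.C ur + T.D wm) ⟨rfl, rfl⟩ ⟨hT, rfl⟩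
  refine ⟨um, wm, ⟨?_, rfl⟩, hT, ?_⟩
  · exact hs.1.trans h1.symm
  · exact hs.2.trans h2.symm

/-- Concatenation is associative. -/
theorem Seg.comp_assoc (S T U : Seg H) (h1 : ‖T.B.comp S.C‖ < 1)
    (h2 : ‖U.B.comp (S.comp T).C‖ < 1) (h3 : ‖U.B.comp T.C‖ < 1)
    (h4 : ‖(T.comp U).B.comp S.C‖ < 1) : (S.comp T).comp U = S.comp (T.comp U) :=
  Seg.ext_sol fun _ _ _ _ hs => by
    obtain ⟨u2, w2, a, b⟩ := Seg.exists_mid _ _ h2 hs
    obtain ⟨u1, w1, c, d⟩ := Seg.exists_mid _ _ h1 a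
    exact S.comp_sol _ h4 c (T.comp_sol _ h3 d b)

/-- The segment of length zero is a left unit. -/
theorem Seg.one_comp (T : Seg H) : (⟨1, 0, 0, 1⟩ : Seg H).comp T = T := by
  refine Seg.ext_sol fun ul wl ur wr hs => ?_
  obtain ⟨um, wm, ⟨a1, a2⟩, b⟩ := Seg.exists_mid _ T (by simp) hs
  simp only [one_apply_eq_self, zero_apply, add_zero, zero_add] at a1 a2
  rwa [a1, ← a2]

/-- The segment of length zero is a right unit. -/
theorem Seg.comp_one (S : Seg H) : S.comp ⟨1, 0, 0, 1⟩ = S := by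
  refine Seg.ext_sol fun ul wl ur wr hs => ?_
  obtain ⟨um, wm, a, b1, b2⟩ := Seg.exists_mid S _ (by simp) hs
  simp only [one_apply_eq_self, zero_apply, add_zero, zero_add] at b1 b2
  rwa [b2, ← b1]

end

end Vale.Agent.P225
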