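import Vale.Agent.P225.Loop.LoopData
import Vale.Agent.P225.Loop.ExcBase

/-!
P225, CorrResponse (helper2): concatenation of exact diagonal segments whose coefficients depend on
the value of the level only.
-/

open Finset

namespace Vale.Agent.P225

noncomputable section

/-- A function of the value of the level. -/
def LevInv (f : ℕ × ℕ → ℝ) : Prop := ∀ g g', Loop.levV g = Loop.levV g' → f g = f g'

/-- `S` is diagonal, has `C = 0`, and level coefficients in the signs and bounds of a wait. -/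
structure LevDiagSeg (S : Seg HSp) (q β : ℕ × ℕ → ℝ) (e Bd : ℝ) : Prop where
  Q : ∀ x i, S.Q x i = q (i.blk.level 0) * x i
  B : ∀ x i, S.B x i = i.blk.mu * β (i.blk.level 0) * x i
  C : S.C = 0
  D : ∃ d : ℕ × ℕ → ℝ, (∀ g, 0 ≤ d g ∧ d g ≤ e) ∧ LevInv d ∧
    ∀ x i, S.D x i = d (i.blk.level 0) * x i
  inv : LevInv q ∧ LevInv β
  q_mem : ∀ g, 0 < q g ∧ q g ≤ 1
  β_mem : ∀ g, -Bd ≤ β g ∧ β g ≤ 0

theorem LevDiagSeg.comp {S T : Seg HSp} {q β q' β' : ℕ × ℕ → ℝ} {e e' B B' : ℝ}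
    (hS : LevDiagSeg S q β e B) (hT : LevDiagSeg T q' β' e' B') (he : e ≤ 1) :
    LevDiagSeg (S.comp T) (fun g => q g * q' g)
      (fun g => β g + q g * β' g * (Classical.choose hS.D) g) (e * e') (B + B') := by
  obtain ⟨hd, hdi, hD⟩ := Classical.choose_spec hS.D
  obtain ⟨d', hd', hdi', hD'⟩ := hT.D
  have hN : neumann (T.B.comp S.C) = 1 := by
    rw [hS.C, ContinuousLinearMap.comp_zero]; simp [neumann]
  refine ⟨fun x i => ?_, fun x i => ?_, ?_, ⟨fun g => d' g * Classical.choose hS.D g,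
    fun g => ⟨mul_nonneg (hd' g).1 (hd g).1, ?_⟩, fun g g' h => ?_, fun x i => ?_⟩,
    ⟨fun g g' h => ?_, fun g g' h => ?_⟩, fun g => ⟨?_, ?_⟩,
    fun g => ⟨?_, ?_⟩⟩
  · show S.Q (neumann (T.B.comp S.C) (T.Q x)) i = _
    rw [hN, one_apply_eq_self, hS.Q, hT.Q]
    ring
  · show S.B x i + S.Q (neumann (T.B.comp S.C) (T.B (S.D x))) i = _
    rw [hN, one_apply_eq_self, hS.B, hS.Q, hT.B, hD]
    ring
  · show T.C + T.D.comp (S.C.comp _) = 0
    simp [hT.C, hS.C]
  · rw [mul_comm e]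
    exact mul_le_mul (hd' g).2 (hd g).2 (hd g).1 ((hd' g).1.trans (hd' g).2)
  · show d' g * _ = d' g' * _
    rw [hdi' g g' h, hdi g g' h]
  · show T.D (S.D x + S.C (neumann (T.B.comp S.C) (T.B (S.D x)))) i = _
    rw [hS.C, zero_apply, add_zero, hD', hD]
    ring
  · show q g * q' g = q g' * q' g'
    rw [hS.inv.1 g g' h, hT.inv.1 g g' h]
  · show β g + q g * β' g * _ = β g' + q g' * β' g' * _
    rw [hS.inv.1 g g' h, hS.inv.2 g g' h, hT.inv.2 g g' h, hdi g g' h]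
  · exact mul_pos (hS.q_mem g).1 (hT.q_mem g).1
  · exact mul_le_one₀ (hS.q_mem g).2 (hT.q_mem g).1.le (hT.q_mem g).2
  · have h1 : q g * (-β' g) * Classical.choose hS.D g ≤ 1 * B' * 1 :=
      mul_le_mul (mul_le_mul (hS.q_mem g).2 (by linarith [(hT.β_mem g).1]) (by linarith [(hT.β_mem g).2])
        zero_le_one) ((hd g).2.trans he) (hd g).1 (by linarith [(hT.β_mem g).1, (hT.β_mem g).2])
    linarith [(hS.β_mem g).1]
  · have h1 : 0 ≤ q g * (-β' g) * Classical.choose hS.D g :=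
      mul_nonneg (mul_nonneg (hS.q_mem g).1.le (by linarith [(hT.β_mem g).2])) (hd g).1
    linarith [(hS.β_mem g).2]

theorem levDiagSeg_one {e : ℝ} (he : e = 1) :
    LevDiagSeg (Loop.segOne : Seg HSp) (fun _ => 1) (fun _ => 0) e 0 := by
  subst he
  exact ⟨fun x i => (one_mul _).symm, fun x i => by simp [Loop.segOne], rfl,
    ⟨fun _ => 1, fun _ => ⟨zero_le_one, le_rfl⟩, fun _ _ _ => rfl, fun x i => (one_mul _).symm⟩,
    ⟨fun _ _ _ => rfl, fun _ _ _ => rfl⟩,
    fun _ => ⟨one_pos, le_rfl⟩, fun _ => ⟨by norm_num, le_rfl⟩⟩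

/-- A range of exact waits. -/
theorem segRange_levDiag {S : ℕ → Seg HSp} {q : ℕ → ℕ × ℕ → ℝ} {e B : ℝ} (he : e ≤ 1) :
    ∀ n i, (∀ m, i ≤ m → m < i + n → ∃ β, LevDiagSeg (S m) (q m) β e B) →
      ∃ β, LevDiagSeg (segRange S i n) (fun g => ∏ l ∈ range n, q (i + l) g) β (e ^ n) (n * B)
  | 0, i, _ => ⟨fun _ => 0, by simpa [segRange] using levDiagSeg_one (e := (1 : ℝ)) rfl⟩
  | n + 1, i, h => by
      obtain ⟨β, hβ⟩ := h i le_rfl (by omega)
      obtain ⟨β', hβ'⟩ := segRange_levDiag he n (i + 1) fun m h1 h2 => h m (by omega) (by omega)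
      have h' := hβ.comp hβ' he
      have e1 : (fun g => ∏ l ∈ range (n + 1), q (i + l) g)
          = fun g => q i g * ∏ l ∈ range n, q (i + 1 + l) g := funext fun g => by
        rw [Finset.prod_range_succ', mul_comm, add_zero]
        exact congrArg _ (Finset.prod_congr rfl fun l _ => by rw [Nat.add_assoc, Nat.add_comm 1])
      rw [e1, pow_succ', show ((n + 1 : ℕ) : ℝ) * B = B + n * B by push_cast; ring]
      exact ⟨_, h'⟩

/-- The norm of `D` of such a segment. -/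
theorem LevDiagSeg.norm_D {S : Seg HSp} {q β : ℕ × ℕ → ℝ} {e B : ℝ} (h : LevDiagSeg S q β e B) :
    ‖S.D‖ ≤ e := by
  obtain ⟨d, hd, -, hD⟩ := h.D
  have he : 0 ≤ e := (hd 0).1.trans (hd 0).2
  have hb : ∀ i : St, |d (i.blk.level 0)| ≤ e := fun i => by
    rw [abs_of_nonneg (hd _).1]; exact (hd _).2
  rw [show S.D = diagOp (fun i : St => d (i.blk.level 0)) e he hb from
    ContinuousLinearMap.ext fun x => lp.ext (funext fun i => by rw [hD]; rfl)]
  exact norm_diagOp_le _ _ _ _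

end

end Vale.Agent.P225
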