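import Vale.Agent.P225.Seg.Basic
import Vale.Agent.P225.Ode.Scalar

/-!
P225, module 9 (helper2): a perturbed segment in `ℓ²(levels; C([a,b]; E_level))` (GATE8, F3).

On each level `g` the base slope `z g` is a scalar.  The perturbation `P t g h : E h → E g` is banded.
`(w_g)' = -(c + z_g) w_g + (P x)_g`, `x_g' = z_g x_g + w_g`, with `x_g b` and `w_g a` prescribed.
-/

open Set MeasureTheory

namespace Vale.Agent.P225

open scoped lp ENNReal

noncomputable section

section Lp2

variable {G : Type*} {F : G → Type*} [∀ g, NormedAddCommGroup (F g)]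

theorem sum_sq_le_lp (x : lp F 2) (s : Finset G) : ∑ g ∈ s, ‖x g‖ ^ 2 ≤ ‖x‖ ^ 2 := by
  simpa using lp.sum_rpow_le_norm_rpow (p := 2) (by norm_num) x s

theorem memℓp_two {f : ∀ g, F g} {C : ℝ} (h : ∀ s : Finset G, ∑ g ∈ s, ‖f g‖ ^ 2 ≤ C) :
    Memℓp f 2 :=
  memℓp_gen' (C := C) fun s => by simpa using h s

theorem norm_le_of_sum_sq {x : lp F 2} {C : ℝ} (hC : 0 ≤ C)
    (h : ∀ s : Finset G, ∑ g ∈ s, ‖x g‖ ^ 2 ≤ C ^ 2) : ‖x‖ ≤ C :=
  lp.norm_le_of_forall_sum_le (by norm_num) hC fun s => by simpa using h s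

/-- Schur test for a banded nonnegative kernel. -/
theorem schur_sum_sq_le {M : G → G → ℝ} {nb : G → Finset G} {θ B : ℝ} {f : G → ℝ}
    (hM : ∀ g h, 0 ≤ M g h) (hθ : 0 ≤ θ) (hrow : ∀ g, ∑ h ∈ nb g, M g h ≤ θ)
    (hcol : ∀ h (s : Finset G), ∑ g ∈ s, M g h ≤ θ)
    (hf : ∀ t : Finset G, ∑ h ∈ t, f h ^ 2 ≤ B) (s : Finset G) :
    ∑ g ∈ s, (∑ h ∈ nb g, M g h * f h) ^ 2 ≤ θ ^ 2 * B := by
  classical
  have h1 : ∀ g, (∑ h ∈ nb g, M g h * f h) ^ 2 ≤ θ * ∑ h ∈ nb g, M g h * f h ^ 2 := by
    intro g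
    refine (Finset.sum_sq_le_sum_mul_sum_of_sq_le_mul (f := M g) (g := fun h => M g h * f h ^ 2) _
      (fun h _ => hM g h) (fun h _ => mul_nonneg (hM g h) (sq_nonneg _))
      fun h _ => le_of_eq (by ring)).trans ?_
    exact mul_le_mul_of_nonneg_right (hrow g)
      (Finset.sum_nonneg fun h _ => mul_nonneg (hM g h) (sq_nonneg _))
  set U := s.biUnion nb
  calc ∑ g ∈ s, (∑ h ∈ nb g, M g h * f h) ^ 2
      ≤ ∑ g ∈ s, θ * ∑ h ∈ nb g, M g h * f h ^ 2 := Finset.sum_le_sum fun g _ => h1 g
    _ ≤ ∑ g ∈ s, θ * ∑ h ∈ U, M g h * f h ^ 2 := by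
        refine Finset.sum_le_sum fun g hg => mul_le_mul_of_nonneg_left ?_ hθ
        exact Finset.sum_le_sum_of_subset_of_nonneg (Finset.subset_biUnion_of_mem nb hg)
          fun h _ _ => mul_nonneg (hM g h) (sq_nonneg _)
    _ = θ * ∑ h ∈ U, (∑ g ∈ s, M g h) * f h ^ 2 := by
        rw [← Finset.mul_sum, Finset.sum_comm]
        simp only [Finset.sum_mul]
    _ ≤ θ * ∑ h ∈ U, θ * f h ^ 2 := by
        refine mul_le_mul_of_nonneg_left (Finset.sum_le_sum fun h _ => ?_) hθ
        exact mul_le_mul_of_nonneg_right (hcol h s) (sq_nonneg _)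
    _ ≤ θ ^ 2 * B := by
        rw [← Finset.mul_sum, ← mul_assoc, ← sq]
        exact mul_le_mul_of_nonneg_left (hf U) (sq_nonneg _)

end Lp2

section Kernel

variable {E : Type*} [NormedAddCommGroup E] [NormedSpace ℝ E] [CompleteSpace E]
variable {c z : ℝ → ℝ} {a b : ℝ}

/-- Forward kernel: `w' = -(c+z) w + f`, `w a = W`. -/
def kerW (c z : ℝ → ℝ) (a : ℝ) (W : E) (f : ℝ → E) (t : ℝ) : E :=
  Real.exp (-Ode.prim (fun s => c s + z s) a t) •
    (W + ∫ s in a..t, Real.exp (Ode.prim (fun s => c s + z s) a s) • f s)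

/-- Backward kernel: `y' = z y + w`, `y b = U`. -/
def kerY (z : ℝ → ℝ) (b : ℝ) (U : E) (w : ℝ → E) (t : ℝ) : E :=
  Real.exp (Ode.prim z b t) • (U + ∫ s in b..t, Real.exp (-Ode.prim z b s) • w s)

theorem hasDerivAt_kerW (hc : Continuous c) (hz : Continuous z) (a : ℝ) (W : E) {f : ℝ → E}
    (hf : Continuous f) (t : ℝ) :
    HasDerivAt (kerW c z a W f) (-(c t + z t) • kerW c z a W f t + f t) t := by
  have hcz : Continuous fun s => c s + z s := hc.add hz
  have hi : Continuous fun s => Real.exp (Ode.prim (fun s => c s + z s) a s) • f s :=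
    (Real.continuous_exp.comp (Ode.continuous_prim hcz a)).smul hf
  refine (((Ode.hasDerivAt_prim hcz a t).neg.exp).smul
    (((hi.integral_hasStrictDerivAt a t).hasDerivAt).const_add W)).congr_deriv ?_
  simp only [kerW, Pi.neg_apply, smul_smul, ← Real.exp_add, neg_add_cancel, Real.exp_zero, one_smul]
  rw [mul_comm (-(c t + z t)), add_comm]

theorem hasDerivAt_kerY (hz : Continuous z) (b : ℝ) (U : E) {w : ℝ → E} (hw : Continuous w) (t : ℝ) :
    HasDerivAt (kerY z b U w) (z t • kerY z b U w t + w t) t := by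
  have hi : Continuous fun s => Real.exp (-Ode.prim z b s) • w s :=
    (Real.continuous_exp.comp (Ode.continuous_prim hz b).neg).smul hw
  refine (((Ode.hasDerivAt_prim hz b t).exp).smul
    (((hi.integral_hasStrictDerivAt b t).hasDerivAt).const_add U)).congr_deriv ?_
  simp only [kerY, smul_smul, ← Real.exp_add, add_neg_cancel, Real.exp_zero, one_smul]
  rw [mul_comm (z t), add_comm]

theorem continuous_kerW (hc : Continuous c) (hz : Continuous z) (a : ℝ) (W : E) {f : ℝ → E}
    (hf : Continuous f) : Continuous (kerW c z a W f) :=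
  continuous_iff_continuousAt.2 fun t => (hasDerivAt_kerW hc hz a W hf t).continuousAt

theorem continuous_kerY (hz : Continuous z) (b : ℝ) (U : E) {w : ℝ → E} (hw : Continuous w) :
    Continuous (kerY z b U w) :=
  continuous_iff_continuousAt.2 fun t => (hasDerivAt_kerY hz b U hw t).continuousAt

omit [CompleteSpace E] in
theorem norm_kerW_zero_le (hc : Continuous c) (hz : Continuous z) {k F : ℝ} (hk : 0 < k)
    {f : ℝ → E} {t : ℝ} (hat : a ≤ t) (hkz : ∀ s ∈ Icc a t, k ≤ c s + z s)
    (hF : ∀ s ∈ Icc a t, ‖f s‖ ≤ F) : ‖kerW c z a 0 f t‖ ≤ F / k := by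
  have hcz : Continuous fun s => c s + z s := hc.add hz
  have hF0 : 0 ≤ F := (norm_nonneg _).trans (hF a (left_mem_Icc.2 hat))
  have hint : ‖∫ s in a..t, Real.exp (Ode.prim (fun s => c s + z s) a s) • f s‖
      ≤ ∫ s in a..t, Real.exp (Ode.prim (fun s => c s + z s) a s) * F := by
    refine intervalIntegral.norm_integral_le_of_norm_le hat (Filter.Eventually.of_forall fun s hs => ?_)
      (((Real.continuous_exp.comp (Ode.continuous_prim hcz a)).mul continuous_const).intervalIntegrable _ _)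
    rw [norm_smul, Real.norm_eq_abs, Real.abs_exp]
    exact mul_le_mul_of_nonneg_left (hF s (Ioc_subset_Icc_self hs)) (Real.exp_pos _).le
  have hlin := Ode.abs_linSol_le (e := fun _ => F) (y₀ := 0) (E := F) hcz continuous_const hk hat hkz
    fun s _ => by rw [abs_of_nonneg hF0]
  simp only [Ode.linSol, zero_sub, mul_neg, abs_neg, abs_zero, zero_mul, zero_add] at hlin
  rw [kerW, zero_add, norm_smul, Real.norm_eq_abs, Real.abs_exp]
  exact (mul_le_mul_of_nonneg_left hint (Real.exp_pos _).le).trans ((le_abs_self _).trans hlin)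

omit [CompleteSpace E] in
theorem norm_kerY_zero_le (hz : Continuous z) {W g : ℝ} {w : ℝ → E} {t : ℝ} (htb : t ≤ b)
    (hg : ∫ s in t..b, Real.exp (-Ode.prim z t s) ≤ g)
    (hW : ∀ s ∈ Icc t b, ‖w s‖ ≤ W) : ‖kerY z b 0 w t‖ ≤ g * W := by
  have hW0 : 0 ≤ W := (norm_nonneg _).trans (hW b (right_mem_Icc.2 htb))
  have hint : ‖∫ s in t..b, Real.exp (-Ode.prim z b s) • w s‖
      ≤ ∫ s in t..b, Real.exp (-Ode.prim z b s) * W := by
    refine intervalIntegral.norm_integral_le_of_norm_le htb (Filter.Eventually.of_forall fun s hs => ?_)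
      (((Real.continuous_exp.comp (Ode.continuous_prim hz b).neg).mul continuous_const).intervalIntegrable _ _)
    rw [norm_smul, Real.norm_eq_abs, Real.abs_exp]
    exact mul_le_mul_of_nonneg_left (hW s (Ioc_subset_Icc_self hs)) (Real.exp_pos _).le
  have he : ∀ s, Real.exp (Ode.prim z b t) * (Real.exp (-Ode.prim z b s) * W)
      = Real.exp (-Ode.prim z t s) * W := by
    intro s
    have : Ode.prim z b s - Ode.prim z b t = Ode.prim z t s :=
      intervalIntegral.integral_interval_sub_left (hz.intervalIntegrable _ _)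
        (hz.intervalIntegrable _ _)
    rw [← mul_assoc, ← Real.exp_add, ← this]
    ring_nf
  rw [kerY, zero_add, norm_smul, Real.norm_eq_abs, Real.abs_exp, intervalIntegral.integral_symm,
    norm_neg]
  refine (mul_le_mul_of_nonneg_left hint (Real.exp_pos _).le).trans ?_
  rw [← intervalIntegral.integral_const_mul]
  simp only [he]
  rw [intervalIntegral.integral_mul_const]
  exact mul_le_mul_of_nonneg_right hg hW0

omit [CompleteSpace E] in
theorem kerY_add_smul (hz : Continuous z) (r : ℝ) {U U' : E} {w w' : ℝ → E} (hw : Continuous w)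
    (hw' : Continuous w') (t : ℝ) :
    kerY z b (r • U + U') (fun s => r • w s + w' s) t
      = r • kerY z b U w t + kerY z b U' w' t := by
  have he : Continuous fun s => Real.exp (-Ode.prim z b s) :=
    Real.continuous_exp.comp (Ode.continuous_prim hz b).neg
  have i1 : IntervalIntegrable (fun s => r • Real.exp (-Ode.prim z b s) • w s) volume b t :=
    ((he.smul hw).const_smul r).intervalIntegrable _ _
  have i2 : IntervalIntegrable (fun s => Real.exp (-Ode.prim z b s) • w' s) volume b t :=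
    (he.smul hw').intervalIntegrable _ _
  simp only [kerY, smul_add, smul_comm (Real.exp (-_)) r]
  rw [intervalIntegral.integral_add i1 i2, intervalIntegral.integral_smul, smul_add,
    smul_comm r (Real.exp (Ode.prim z b t)) U, smul_comm r (Real.exp (Ode.prim z b t))]
  abel

omit [CompleteSpace E] in
theorem kerW_add_smul (hc : Continuous c) (hz : Continuous z) (r : ℝ) {W W' : E} {f f' : ℝ → E}
    (hf : Continuous f) (hf' : Continuous f') (t : ℝ) :
    kerW c z a (r • W + W') (fun s => r • f s + f' s) t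
      = r • kerW c z a W f t + kerW c z a W' f' t := by
  have he : Continuous fun s => Real.exp (Ode.prim (fun s => c s + z s) a s) :=
    Real.continuous_exp.comp (Ode.continuous_prim (κ := fun s => c s + z s) (hc.add hz) a)
  have i1 : IntervalIntegrable (fun s => r • Real.exp (Ode.prim (fun s => c s + z s) a s) • f s)
      volume a t := ((he.smul hf).const_smul r).intervalIntegrable _ _
  have i2 : IntervalIntegrable (fun s => Real.exp (Ode.prim (fun s => c s + z s) a s) • f' s)
      volume a t := (he.smul hf').intervalIntegrable _ _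
  simp only [kerW, smul_add, smul_comm (Real.exp (Ode.prim _ a _)) r]
  rw [intervalIntegral.integral_add i1 i2, intervalIntegral.integral_smul, smul_add,
    smul_comm r (Real.exp _) W, smul_comm r (Real.exp _)]
  abel

end Kernel

/-! ### Data of a perturbed segment -/

/-- Base segment data on levels `G`, with gains: `kw` bounds the forward kernel from below and `gy`
the backward one from above. -/
structure PicardBase (G : Type*) where
  a : ℝ
  b : ℝ
  c : ℝ → ℝ
  z : G → ℝ → ℝ
  ρ : G → ℝ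
  μ : G → ℝ
  kw : G → ℝ
  gy : G → ℝ
  K : ℝ
  δ : ℝ
  le : a ≤ b
  cont_c : Continuous c
  cont_z : ∀ g, Continuous (z g)
  z_nonneg : ∀ g, ∀ t ∈ Icc a b, 0 ≤ z g t
  one_le_μ : ∀ g, 1 ≤ μ g
  kw_pos : ∀ g, 0 < kw g
  kw_le : ∀ g, ∀ t ∈ Icc a b, kw g ≤ c t + z g t
  gy_nonneg : ∀ g, 0 ≤ gy g
  gy_le : ∀ g, ∀ t ∈ Icc a b, ∫ s in t..b, Real.exp (-Ode.prim (z g) t s) ≤ gy g
  K_nonneg : 0 ≤ K
  δ_nonneg : 0 ≤ δ
  gain : ∀ g, ∀ t ∈ Icc a b, μ g ≤ K * (c t + 2 * z g t)
  close : ∀ g, |z g b - ρ g| ≤ δ * μ g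

variable {G : Type*} {E : G → Type*} [∀ g, NormedAddCommGroup (E g)] [∀ g, NormedSpace ℝ (E g)]

/-- A banded perturbation with size bounds. -/
structure PicardPert (S : PicardBase G) (E : G → Type*) [∀ g, NormedAddCommGroup (E g)]
    [∀ g, NormedSpace ℝ (E g)] where
  P : ℝ → ∀ g h, E h →L[ℝ] E g
  cont : ∀ g h, Continuous fun t => P t g h
  nb : G → Finset G
  p : G → G → ℝ
  θ : ℝ
  p_nonneg : ∀ g h, 0 ≤ p g h
  p_le : ∀ t ∈ Icc S.a S.b, ∀ g h, ‖P t g h‖ ≤ p g h
  θ_nonneg : 0 ≤ θ
  rowY : ∀ g, ∑ h ∈ nb g, S.gy g * p g h / S.kw g ≤ θ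
  colY : ∀ h (s : Finset G), ∑ g ∈ s, S.gy g * p g h / S.kw g ≤ θ
  rowW : ∀ g, ∑ h ∈ nb g, p g h / (S.kw g * S.μ g) ≤ θ
  colW : ∀ h (s : Finset G), ∑ g ∈ s, p g h / (S.kw g * S.μ g) ≤ θ

variable {S : PicardBase G}

/-- The solution space. -/
abbrev PX (S : PicardBase G) (E : G → Type*) [∀ g, NormedAddCommGroup (E g)] :=
  lp (fun g => C(Icc S.a S.b, E g)) 2

namespace PicardPert

variable (P : PicardPert S E)

/-- A path of level `g` extended to `ℝ`. -/
def ext (x : PX S E) (g : G) : ℝ → E g := IccExtend S.le (x g)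

/-- `(P x)_g`. -/
def force (x : PX S E) (g : G) (t : ℝ) : E g := ∑ h ∈ P.nb g, P.P t g h (ext x h t)

omit [∀ g, NormedSpace ℝ (E g)] in
theorem continuous_ext (x : PX S E) (g : G) : Continuous (ext x g) := (x g).continuous.Icc_extend'

theorem continuous_force (x : PX S E) (g : G) : Continuous (P.force x g) :=
  continuous_finsetSum _ fun h _ => (P.cont g h).clm_apply (continuous_ext x h)

omit [∀ g, NormedSpace ℝ (E g)] in
theorem norm_ext_le (x : PX S E) (g : G) (t : ℝ) : ‖ext x g t‖ ≤ ‖x g‖ :=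
  ContinuousMap.norm_coe_le_norm _ _

theorem norm_force_le (x : PX S E) (g : G) {t : ℝ} (ht : t ∈ Icc S.a S.b) :
    ‖P.force x g t‖ ≤ ∑ h ∈ P.nb g, P.p g h * ‖x h‖ :=
  (norm_sum_le _ _).trans (Finset.sum_le_sum fun h _ =>
    ((P.P t g h).le_opNorm _).trans
      (mul_le_mul (P.p_le t ht g h) (norm_ext_le x h t) (norm_nonneg _) (P.p_nonneg g h)))

theorem force_add_smul (r : ℝ) (x y : PX S E) (g : G) :
    P.force (r • x + y) g = fun s => r • P.force x g s + P.force y g s := by
  funext s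
  simp only [force, Finset.smul_sum, ← Finset.sum_add_distrib]
  refine Finset.sum_congr rfl fun h _ => ?_
  have e : ext (r • x + y) h s = r • ext x h s + ext y h s := rfl
  rw [e, map_add, map_smul]

variable [∀ g, CompleteSpace (E g)]

/-- Deviation produced by `(P x)_g`. -/
def devPert (x : PX S E) (g : G) : ℝ → E g := kerW S.c (S.z g) S.a 0 (P.force x g)

theorem continuous_devPert (x : PX S E) (g : G) : Continuous (P.devPert x g) :=
  continuous_kerW S.cont_c (S.cont_z g) _ _ (P.continuous_force x g)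

omit [∀ g, CompleteSpace (E g)] in
theorem norm_devPert_le (x : PX S E) (g : G) {t : ℝ} (ht : t ∈ Icc S.a S.b) :
    ‖P.devPert x g t‖ ≤ (∑ h ∈ P.nb g, P.p g h * ‖x h‖) / S.kw g :=
  norm_kerW_zero_le S.cont_c (S.cont_z g) (S.kw_pos g) ht.1
    (fun s hs => S.kw_le g s ⟨hs.1, hs.2.trans ht.2⟩)
    fun _ hs => P.norm_force_le x g ⟨hs.1, hs.2.trans ht.2⟩

omit [∀ g, CompleteSpace (E g)] in
theorem devPert_add_smul (r : ℝ) (x y : PX S E) (g : G) :
    P.devPert (r • x + y) g = fun t => r • P.devPert x g t + P.devPert y g t := by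
  funext t
  simp only [devPert, P.force_add_smul r x y g]
  simpa using kerW_add_smul (a := S.a) (W := (0 : E g)) (W' := 0) S.cont_c (S.cont_z g) r
    (P.continuous_force x g) (P.continuous_force y g) t

/-- The value produced on level `g`, as a path. -/
def stepPath (x : PX S E) (g : G) : C(Icc S.a S.b, E g) :=
  ⟨fun t => kerY (S.z g) S.b 0 (P.devPert x g) t,
    (continuous_kerY (S.cont_z g) _ _ (P.continuous_devPert x g)).comp continuous_subtype_val⟩

theorem norm_stepPath_le (x : PX S E) (g : G) :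
    ‖P.stepPath x g‖ ≤ ∑ h ∈ P.nb g, S.gy g * P.p g h / S.kw g * ‖x h‖ := by
  have h0 : 0 ≤ ∑ h ∈ P.nb g, S.gy g * P.p g h / S.kw g * ‖x h‖ :=
    Finset.sum_nonneg fun h _ => mul_nonneg (div_nonneg (mul_nonneg (S.gy_nonneg g)
      (P.p_nonneg g h)) (S.kw_pos g).le) (norm_nonneg _)
  rw [ContinuousMap.norm_le _ h0]
  intro t
  refine (norm_kerY_zero_le (S.cont_z g) t.2.2 (S.gy_le g t t.2)
    fun s hs => P.norm_devPert_le x g ⟨t.2.1.trans hs.1, hs.2⟩).trans_eq ?_
  rw [Finset.sum_div, Finset.mul_sum]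
  exact Finset.sum_congr rfl fun h _ => by ring

theorem stepPath_sum_sq (x : PX S E) (s : Finset G) :
    ∑ g ∈ s, ‖P.stepPath x g‖ ^ 2 ≤ (P.θ * ‖x‖) ^ 2 := by
  rw [mul_pow]
  refine le_trans (Finset.sum_le_sum fun g _ => pow_le_pow_left₀ (norm_nonneg _)
    (P.norm_stepPath_le x g) 2) ?_
  exact schur_sum_sq_le (M := fun g h => S.gy g * P.p g h / S.kw g) (nb := P.nb)
    (f := fun h => ‖x h‖)
    (fun g h => div_nonneg (mul_nonneg (S.gy_nonneg g) (P.p_nonneg g h)) (S.kw_pos g).le)
    P.θ_nonneg P.rowY P.colY (sum_sq_le_lp x) s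

/-- The Picard operator. -/
def step : PX S E →L[ℝ] PX S E :=
  LinearMap.mkContinuous
    { toFun := fun x => ⟨P.stepPath x, memℓp_two (P.stepPath_sum_sq x)⟩
      map_add' := fun x y => by
        ext g t
        show P.stepPath (x + y) g t = P.stepPath x g t + P.stepPath y g t
        have h := P.devPert_add_smul 1 x y g
        simp only [one_smul] at h
        simpa [stepPath, h] using kerY_add_smul (b := S.b) (U := (0 : E g)) (U' := 0) (S.cont_z g) 1
          (P.continuous_devPert x g) (P.continuous_devPert y g) t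
      map_smul' := fun r x => by
        ext g t
        show P.stepPath (r • x) g t = r • P.stepPath x g t
        have h := P.devPert_add_smul r x 0 g
        have h0 : P.devPert 0 g = fun _ => 0 := by
          funext t; simp [devPert, force, ext, IccExtend_apply, kerW]
        simp only [add_zero, h0] at h
        simpa [stepPath, h, kerY] using kerY_add_smul (b := S.b) (U := (0 : E g)) (U' := 0) (S.cont_z g) r
          (P.continuous_devPert x g) (continuous_const (y := (0 : E g))) t }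
    P.θ fun x => norm_le_of_sum_sq (mul_nonneg P.θ_nonneg (norm_nonneg _)) (P.stepPath_sum_sq x)

theorem norm_step_le : ‖P.step‖ ≤ P.θ := LinearMap.mkContinuous_norm_le _ P.θ_nonneg _

@[simp] theorem step_apply (x : PX S E) (g : G) (t : Icc S.a S.b) :
    P.step x g t = kerY (S.z g) S.b 0 (P.devPert x g) t := rfl

end PicardPert

end

end Vale.Agent.P225
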