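import Vale.Agent.P225.Loop.Error

/-!
P225, CorrResponse (helper2): operator families with a first order and a quadratic remainder on a
ball, and their behaviour under sums, products and the Neumann series.
-/

namespace Vale.Agent.P225

noncomputable section

section Basic

variable {X V : Type*} [NormedAddCommGroup X] [NormedSpace ℝ X] [NormedAddCommGroup V]
  [NormedSpace ℝ V]

/-- `f` is bounded by `K` on the ball of radius `r` and equals a linear map of norm at most `K` up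
to `K (‖p‖ + ‖q‖) ‖p - q‖` in differences. -/
structure SecOrd (r K : ℝ) (f : X → V) (L : X →L[ℝ] V) : Prop where
  rad : r ≤ 1
  rad_nonneg : 0 ≤ r
  norm_lin : ‖L‖ ≤ K
  bd : ∀ p, ‖p‖ ≤ r → ‖f p‖ ≤ K
  rem : ∀ p q, ‖p‖ ≤ r → ‖q‖ ≤ r → ‖f p - f q - L (p - q)‖ ≤ K * (‖p‖ + ‖q‖) * ‖p - q‖

variable {r K K' : ℝ} {f g : X → V} {L M : X →L[ℝ] V}

theorem SecOrd.nonneg (h : SecOrd r K f L) : 0 ≤ K := (norm_nonneg _).trans h.norm_lin

theorem SecOrd.mono (h : SecOrd r K f L) (hK : K ≤ K') : SecOrd r K' f L :=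
  ⟨h.rad, h.rad_nonneg, h.norm_lin.trans hK, fun p hp => (h.bd p hp).trans hK,
    fun p q hp hq => (h.rem p q hp hq).trans (by gcongr)⟩

theorem SecOrd.congr (h : SecOrd r K f L) (e : ∀ p, ‖p‖ ≤ r → f p = g p) : SecOrd r K g L :=
  ⟨h.rad, h.rad_nonneg, h.norm_lin, fun p hp => e p hp ▸ h.bd p hp,
    fun p q hp hq => e p hp ▸ e q hq ▸ h.rem p q hp hq⟩

theorem secOrd_const {v : V} (hr : r ≤ 1) (hr0 : 0 ≤ r) (hv : ‖v‖ ≤ K) :
    SecOrd (X := X) r K (fun _ => v) 0 := by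
  have hK : 0 ≤ K := (norm_nonneg _).trans hv
  refine ⟨hr, hr0, by rw [norm_zero]; exact hK, fun _ _ => hv, fun p q _ _ => ?_⟩
  simp only [sub_self, zero_apply, norm_zero]
  positivity

theorem SecOrd.lip (h : SecOrd r K f L) {p q : X} (hp : ‖p‖ ≤ r) (hq : ‖q‖ ≤ r) :
    ‖f p - f q‖ ≤ 3 * K * ‖p - q‖ := by
  have h1 := h.rem p q hp hq
  have h2 : ‖L (p - q)‖ ≤ K * ‖p - q‖ := L.le_of_opNorm_le h.norm_lin _
  have h3 : K * (‖p‖ + ‖q‖) * ‖p - q‖ ≤ K * 2 * ‖p - q‖ := by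
    have := h.rad
    have := h.nonneg
    gcongr
    linarith
  calc ‖f p - f q‖ = ‖(f p - f q - L (p - q)) + L (p - q)‖ := by rw [sub_add_cancel]
    _ ≤ _ := (norm_add_le _ _).trans (by linarith)

theorem SecOrd.near_zero (h : SecOrd r K f L) {p : X} (hp : ‖p‖ ≤ r) :
    ‖f p - f 0‖ ≤ 3 * K * ‖p‖ := by
  simpa using h.lip hp (q := 0) (by simpa using h.rad_nonneg)

theorem SecOrd.add (h : SecOrd r K f L) (h' : SecOrd r K' g M) :
    SecOrd r (K + K') (fun p => f p + g p) (L + M) := by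
  refine ⟨h.rad, h.rad_nonneg, (norm_add_le _ _).trans (add_le_add h.norm_lin h'.norm_lin),
    fun p hp => (norm_add_le _ _).trans (add_le_add (h.bd p hp) (h'.bd p hp)),
    fun p q hp hq => ?_⟩
  rw [show f p + g p - (f q + g q) - (L + M) (p - q)
    = (f p - f q - L (p - q)) + (g p - g q - M (p - q)) by rw [add_apply]; abel]
  refine (norm_add_le _ _).trans ((add_le_add (h.rem p q hp hq) (h'.rem p q hp hq)).trans_eq ?_)
  ring

/-- The linear part is unique. -/
theorem SecOrd.lin_eq (h : SecOrd r K f L) (h' : SecOrd r K' f M) (hr : 0 < r) : L = M := by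
  ext x
  by_contra hne
  have hd : 0 < ‖L x - M x‖ := norm_pos_iff.2 (sub_ne_zero.2 hne)
  set n := ‖x‖ + 1
  have hn : 0 < n := by positivity
  set t := min (r / n) (‖L x - M x‖ / (2 * ((K + K' + 1) * n * n)))
  have hK := h.nonneg
  have hK' := h'.nonneg
  have ht : 0 < t := lt_min (by positivity) (by positivity)
  have hxn : ‖x‖ ≤ n := by linarith
  have htx : ‖t • x‖ ≤ r := by
    rw [norm_smul, Real.norm_of_nonneg ht.le]
    calc t * ‖x‖ ≤ r / n * n := mul_le_mul (min_le_left _ _) hxn (norm_nonneg _) (by positivity)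
      _ = r := div_mul_cancel₀ _ hn.ne'
  have h0 : ‖(0 : X)‖ ≤ r := by simpa using hr.le
  have e1 := h.rem _ _ htx h0
  have e2 := h'.rem _ _ htx h0
  simp only [norm_zero, add_zero, sub_zero, map_smul, norm_smul, Real.norm_of_nonneg ht.le] at e1 e2
  have e3 : t * ‖L x - M x‖ ≤ (K + K') * (t * ‖x‖) * (t * ‖x‖) := by
    calc t * ‖L x - M x‖ = ‖(f (t • x) - f 0 - t • M x) - (f (t • x) - f 0 - t • L x)‖ := by
          rw [← Real.norm_of_nonneg ht.le, ← norm_smul, smul_sub, Real.norm_of_nonneg ht.le]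
          congr 1
          abel
      _ ≤ _ := (norm_sub_le _ _).trans (by linarith)
  have e4 : t * (2 * ((K + K' + 1) * n * n)) ≤ ‖L x - M x‖ :=
    (le_div_iff₀ (by positivity)).1 (min_le_right _ _)
  have e5 : (K + K') * ‖x‖ * ‖x‖ ≤ (K + K' + 1) * n * n :=
    mul_le_mul (mul_le_mul (by linarith) hxn (norm_nonneg _) (by linarith)) hxn (norm_nonneg _)
      (by positivity)
  nlinarith [mul_le_mul_of_nonneg_left e5 (mul_pos ht ht).le, mul_le_mul_of_nonneg_left e4 ht.le,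
    mul_pos ht hd]

/-- A scalar parameter to first and second order. -/
theorem secOrd_sq {v w : V} {φ : X →L[ℝ] ℝ} (hr : r ≤ 1) (hr0 : 0 ≤ r) (hφ : ‖φ‖ ≤ 1)
    (hv : ‖v‖ ≤ K) (hw : ‖w‖ ≤ K') :
    SecOrd r (K + K') (fun p => φ p • v + φ p ^ 2 • w) (φ.smulRight v) := by
  have hK : 0 ≤ K := (norm_nonneg _).trans hv
  have hK' : 0 ≤ K' := (norm_nonneg _).trans hw
  have hp1 : ∀ p, |φ p| ≤ ‖p‖ := fun p => by
    simpa [Real.norm_eq_abs] using φ.le_of_opNorm_le hφ p
  refine ⟨hr, hr0, ?_, fun p hp => ?_, fun p q _ _ => ?_⟩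
  · rw [ContinuousLinearMap.norm_smulRight_apply]
    calc ‖φ‖ * ‖v‖ ≤ 1 * K := mul_le_mul hφ hv (norm_nonneg _) zero_le_one
      _ ≤ K + K' := by linarith
  · refine (norm_add_le _ _).trans (add_le_add ?_ ?_) <;> rw [norm_smul, Real.norm_eq_abs]
    · exact (mul_le_of_le_one_left (norm_nonneg _) ((hp1 p).trans (hp.trans hr))).trans hv
    · refine (mul_le_of_le_one_left (norm_nonneg _) ?_).trans hw
      rw [abs_pow]
      exact pow_le_one₀ (abs_nonneg _) ((hp1 p).trans (hp.trans hr))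
  · have e : φ p • v + φ p ^ 2 • w - (φ q • v + φ q ^ 2 • w) - φ.smulRight v (p - q)
        = ((φ p + φ q) * φ (p - q)) • w := by
      rw [ContinuousLinearMap.smulRight_apply, map_sub]
      module
    rw [e, norm_smul, Real.norm_eq_abs, abs_mul]
    calc |φ p + φ q| * |φ (p - q)| * ‖w‖ ≤ (‖p‖ + ‖q‖) * ‖p - q‖ * K' := by
          gcongr
          exacts [(abs_add_le _ _).trans (add_le_add (hp1 p) (hp1 q)), hp1 _]
      _ ≤ (K + K') * (‖p‖ + ‖q‖) * ‖p - q‖ := by
          have : 0 ≤ K * ((‖p‖ + ‖q‖) * ‖p - q‖) := by positivity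
          linarith

end Basic

section Comp

variable {X E F G : Type*} [NormedAddCommGroup X] [NormedSpace ℝ X] [NormedAddCommGroup E]
  [NormedSpace ℝ E] [NormedAddCommGroup F] [NormedSpace ℝ F] [NormedAddCommGroup G]
  [NormedSpace ℝ G] {r K K' : ℝ}

/-- The linear part of a product. -/
def linComp (a : F →L[ℝ] G) (b : E →L[ℝ] F) (L : X →L[ℝ] F →L[ℝ] G) (M : X →L[ℝ] E →L[ℝ] F) :
    X →L[ℝ] E →L[ℝ] G :=
  ((ContinuousLinearMap.compL ℝ E F G).flip b).comp L + (ContinuousLinearMap.compL ℝ E F G a).comp M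

theorem linComp_apply (a : F →L[ℝ] G) (b : E →L[ℝ] F) (L : X →L[ℝ] F →L[ℝ] G)
    (M : X →L[ℝ] E →L[ℝ] F) (x : X) : linComp a b L M x = (L x).comp b + a.comp (M x) := rfl

theorem SecOrd.comp {f : X → F →L[ℝ] G} {g : X → E →L[ℝ] F} {L : X →L[ℝ] F →L[ℝ] G}
    {M : X →L[ℝ] E →L[ℝ] F} (h : SecOrd r K f L) (h' : SecOrd r K' g M) :
    SecOrd r (14 * K * K') (fun p => (f p).comp (g p)) (linComp (f 0) (g 0) L M) := by
  have hK := h.nonneg
  have hK' := h'.nonneg
  have h0 : ‖(0 : X)‖ ≤ r := by simpa using h.rad_nonneg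
  refine ⟨h.rad, h.rad_nonneg, ?_, fun p hp => ?_, fun p q hp hq => ?_⟩
  · refine ContinuousLinearMap.opNorm_le_bound _ (by positivity) fun x => ?_
    rw [linComp_apply]
    refine (norm_add_le _ _).trans ?_
    have a1 : ‖(L x).comp (g 0)‖ ≤ K * ‖x‖ * K' :=
      (ContinuousLinearMap.opNorm_comp_le _ _).trans (mul_le_mul (L.le_of_opNorm_le h.norm_lin x)
        (h'.bd 0 h0) (norm_nonneg _) (by positivity))
    have a2 : ‖(f 0).comp (M x)‖ ≤ K * (K' * ‖x‖) :=
      (ContinuousLinearMap.opNorm_comp_le _ _).trans (mul_le_mul (h.bd 0 h0)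
        (M.le_of_opNorm_le h'.norm_lin x) (norm_nonneg _) hK)
    linarith [mul_nonneg (mul_nonneg hK hK') (norm_nonneg x)]
  · refine ((ContinuousLinearMap.opNorm_comp_le _ _).trans
      (mul_le_mul (h.bd p hp) (h'.bd p hp) (norm_nonneg _) hK)).trans ?_
    linarith [mul_nonneg hK hK']
  · rw [show (f p).comp (g p) - (f q).comp (g q) - linComp (f 0) (g 0) L M (p - q)
      = (f p - f q - L (p - q)).comp (g p) + (L (p - q)).comp (g p - g 0)
        + (f q - f 0).comp (g p - g q) + (f 0).comp (g p - g q - M (p - q)) by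
      rw [linComp_apply]
      simp only [ContinuousLinearMap.comp_sub, ContinuousLinearMap.sub_comp]
      abel]
    have b1 : ‖(f p - f q - L (p - q)).comp (g p)‖ ≤ K * (‖p‖ + ‖q‖) * ‖p - q‖ * K' :=
      (ContinuousLinearMap.opNorm_comp_le _ _).trans (mul_le_mul (h.rem p q hp hq) (h'.bd p hp)
        (norm_nonneg _) (by positivity))
    have b2 : ‖(L (p - q)).comp (g p - g 0)‖ ≤ K * ‖p - q‖ * (3 * K' * ‖p‖) :=
      (ContinuousLinearMap.opNorm_comp_le _ _).trans (mul_le_mul (L.le_of_opNorm_le h.norm_lin _)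
        (h'.near_zero hp) (norm_nonneg _) (by positivity))
    have b3 : ‖(f q - f 0).comp (g p - g q)‖ ≤ 3 * K * ‖q‖ * (3 * K' * ‖p - q‖) :=
      (ContinuousLinearMap.opNorm_comp_le _ _).trans (mul_le_mul (h.near_zero hq)
        (h'.lip hp hq) (norm_nonneg _) (by positivity))
    have b4 : ‖(f 0).comp (g p - g q - M (p - q))‖ ≤ K * (K' * (‖p‖ + ‖q‖) * ‖p - q‖) :=
      (ContinuousLinearMap.opNorm_comp_le _ _).trans (mul_le_mul (h.bd 0 h0)
        (h'.rem p q hp hq) (norm_nonneg _) hK)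
    refine (norm_add_le _ _).trans ((add_le_add ((norm_add_le _ _).trans
      (add_le_add (norm_add_le _ _) le_rfl)) le_rfl).trans ?_)
    have : 0 ≤ K * K' * ‖p - q‖ * ‖p‖ := by positivity
    have : 0 ≤ K * K' * ‖p - q‖ * ‖q‖ := by positivity
    linarith

/-- A linear image. -/
theorem SecOrd.map {V W : Type*} [NormedAddCommGroup V] [NormedSpace ℝ V] [NormedAddCommGroup W]
    [NormedSpace ℝ W] {f : X → V} {L : X →L[ℝ] V} (h : SecOrd r K f L) (A : V →L[ℝ] W) {a : ℝ}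
    (ha : ‖A‖ ≤ a) : SecOrd r (a * K) (fun p => A (f p)) (A.comp L) := by
  have ha0 : 0 ≤ a := (norm_nonneg _).trans ha
  refine ⟨h.rad, h.rad_nonneg, (ContinuousLinearMap.opNorm_comp_le _ _).trans
    (mul_le_mul ha h.norm_lin (norm_nonneg _) ha0),
    fun p hp => (A.le_of_opNorm_le ha _).trans (mul_le_mul_of_nonneg_left (h.bd p hp) ha0),
    fun p q hp hq => ?_⟩
  rw [ContinuousLinearMap.comp_apply, ← map_sub, ← map_sub]
  refine (A.le_of_opNorm_le ha _).trans
    ((mul_le_mul_of_nonneg_left (h.rem p q hp hq) ha0).trans_eq ?_)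
  ring

/-- A product with fixed factors on both sides. -/
theorem SecOrd.sandwich {f : X → F →L[ℝ] G} {L : X →L[ℝ] F →L[ℝ] G} (h : SecOrd r K f L)
    {E' : Type*} [NormedAddCommGroup E'] [NormedSpace ℝ E'] (U : G →L[ℝ] E') (V : E →L[ℝ] F)
    {u v : ℝ} (hu : ‖U‖ ≤ u) (hv : ‖V‖ ≤ v) :
    SecOrd r (u * v * K) (fun p => U.comp ((f p).comp V))
      (((ContinuousLinearMap.compL ℝ E G E' U).comp
        ((ContinuousLinearMap.compL ℝ E F G).flip V)).comp L) := by
  refine (h.map ((ContinuousLinearMap.compL ℝ E G E' U).comp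
    ((ContinuousLinearMap.compL ℝ E F G).flip V)) (a := u * v) ?_).congr fun p _ => rfl
  refine ContinuousLinearMap.opNorm_le_bound _
    (mul_nonneg ((norm_nonneg _).trans hu) ((norm_nonneg _).trans hv)) fun T => ?_
  show ‖U.comp (T.comp V)‖ ≤ u * v * ‖T‖
  refine ((ContinuousLinearMap.opNorm_comp_le _ _).trans (mul_le_mul hu
    ((ContinuousLinearMap.opNorm_comp_le _ _).trans (mul_le_mul_of_nonneg_left hv (norm_nonneg _)))
    (norm_nonneg _) ((norm_nonneg _).trans hu))).trans_eq ?_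
  ring

end Comp

section Neumann

variable {X H : Type*} [NormedAddCommGroup X] [NormedSpace ℝ X] [NormedAddCommGroup H]
  [NormedSpace ℝ H] [CompleteSpace H] {r K : ℝ}

/-- The Neumann series of a family below `1/2`. -/
theorem SecOrd.neumann {f : X → H →L[ℝ] H} {L : X →L[ℝ] H →L[ℝ] H} (h : SecOrd r K f L)
    (hs : ∀ p, ‖p‖ ≤ r → ‖f p‖ ≤ 1 / 2) :
    SecOrd r (4 * K + 48 * K ^ 2 + 2) (fun p => neumann (f p))
      (linComp (Vale.Agent.P225.neumann (f 0)) (Vale.Agent.P225.neumann (f 0)) 0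
        (linComp 0 (Vale.Agent.P225.neumann (f 0)) L 0)) := by
  have hK := h.nonneg
  have h0 : ‖(0 : X)‖ ≤ r := by simpa using h.rad_nonneg
  set N := fun p => Vale.Agent.P225.neumann (f p)
  have hN : ∀ p, ‖p‖ ≤ r → ‖N p‖ ≤ 2 := fun p hp => norm_neumann_two (hs p hp)
  have hsub : ∀ p q, ‖p‖ ≤ r → ‖q‖ ≤ r → N p - N q = (N p).comp ((f p - f q).comp (N q)) :=
    fun p q hp hq => neumann_sub (by linarith [hs p hp]) (by linarith [hs q hq])
  have hlip : ∀ p q, ‖p‖ ≤ r → ‖q‖ ≤ r → ‖N p - N q‖ ≤ 12 * K * ‖p - q‖ := fun p q hp hq => by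
    rw [hsub p q hp hq]
    refine ((ContinuousLinearMap.opNorm_comp_le _ _).trans (mul_le_mul (hN p hp)
      ((ContinuousLinearMap.opNorm_comp_le _ _).trans (mul_le_mul (h.lip hp hq) (hN q hq)
        (norm_nonneg _) (by positivity))) (norm_nonneg _) zero_le_two)).trans_eq ?_
    ring
  have hlin : ∀ x, linComp (N 0) (N 0) (0 : X →L[ℝ] H →L[ℝ] H)
      (linComp (0 : H →L[ℝ] H) (N 0) L 0) x = (N 0).comp ((L x).comp (N 0)) := fun x => by
    simp [linComp_apply]
  refine ⟨h.rad, h.rad_nonneg, ?_, fun p hp => (hN p hp).trans (by nlinarith),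
    fun p q hp hq => ?_⟩
  · refine ContinuousLinearMap.opNorm_le_bound _ (by positivity) fun x => ?_
    rw [hlin]
    refine ((ContinuousLinearMap.opNorm_comp_le _ _).trans (mul_le_mul (hN 0 h0)
      ((ContinuousLinearMap.opNorm_comp_le _ _).trans (mul_le_mul (L.le_of_opNorm_le h.norm_lin x)
        (hN 0 h0) (norm_nonneg _) (by positivity))) (norm_nonneg _) zero_le_two)).trans ?_
    nlinarith [norm_nonneg x]
  · rw [hlin]
    show ‖N p - N q - (N 0).comp ((L (p - q)).comp (N 0))‖ ≤ _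
    rw [show N p - N q - (N 0).comp ((L (p - q)).comp (N 0))
      = (N p).comp ((f p - f q - L (p - q)).comp (N q))
        + (N p - N 0).comp ((L (p - q)).comp (N q))
        + (N 0).comp ((L (p - q)).comp (N q - N 0)) by
      rw [hsub p q hp hq]
      simp only [ContinuousLinearMap.comp_sub, ContinuousLinearMap.sub_comp]
      abel]
    have c : ∀ {A B C : H →L[ℝ] H} {a b c : ℝ}, ‖A‖ ≤ a → ‖B‖ ≤ b → ‖C‖ ≤ c →
        ‖A.comp (B.comp C)‖ ≤ a * (b * c) := fun hA hB hC =>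
      (ContinuousLinearMap.opNorm_comp_le _ _).trans (mul_le_mul hA
        ((ContinuousLinearMap.opNorm_comp_le _ _).trans (mul_le_mul hB hC (norm_nonneg _)
          ((norm_nonneg _).trans hB))) (norm_nonneg _) ((norm_nonneg _).trans hA))
    have hL := L.le_of_opNorm_le h.norm_lin (p - q)
    have d1 := c (hN p hp) (h.rem p q hp hq) (hN q hq)
    have d2 := c (hlip p 0 hp h0) hL (hN q hq)
    have d3 := c (hN 0 h0) hL (hlip q 0 hq h0)
    simp only [sub_zero] at d2 d3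
    refine (norm_add_le _ _).trans ((add_le_add (norm_add_le _ _) le_rfl).trans ?_)
    have : 0 ≤ K ^ 2 * ‖p - q‖ * ‖p‖ := by positivity
    have : 0 ≤ K ^ 2 * ‖p - q‖ * ‖q‖ := by positivity
    have : 0 ≤ (‖p‖ + ‖q‖) * ‖p - q‖ := by positivity
    linarith

end Neumann

end

end Vale.Agent.P225
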