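import Vale.Agent.P225.Seg.SecOrder
import Vale.Agent.P225.Loop.LoopData

/-!
P225, CorrResponse (helper2): families of segments with quadratic remainder are closed under
concatenation; the first order of a middle segment inside a concatenation of three.
-/

namespace Vale.Agent.P225

noncomputable section

variable {X H : Type*} [NormedAddCommGroup X] [NormedSpace ℝ X] [NormedAddCommGroup H]
  [NormedSpace ℝ H] {r K K' : ℝ}

/-- All four maps of a family of segments are of second order. -/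
structure SegSec (r K : ℝ) (S : X → Seg H) : Prop where
  Q : ∃ L, SecOrd r K (fun p => (S p).Q) L
  B : ∃ L, SecOrd r K (fun p => (S p).B) L
  C : ∃ L, SecOrd r K (fun p => (S p).C) L
  D : ∃ L, SecOrd r K (fun p => (S p).D) L

theorem SegSec.mono {S : X → Seg H} (h : SegSec r K S) (hK : K ≤ K') : SegSec r K' S :=
  ⟨h.Q.imp fun _ e => e.mono hK, h.B.imp fun _ e => e.mono hK, h.C.imp fun _ e => e.mono hK,
    h.D.imp fun _ e => e.mono hK⟩

theorem segSec_const (S : Seg H) (hr : r ≤ 1) (hr0 : 0 ≤ r) (hQ : ‖S.Q‖ ≤ K) (hB : ‖S.B‖ ≤ K)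
    (hC : ‖S.C‖ ≤ K) (hD : ‖S.D‖ ≤ K) : SegSec (X := X) r K fun _ => S :=
  ⟨⟨0, secOrd_const hr hr0 hQ⟩, ⟨0, secOrd_const hr hr0 hB⟩, ⟨0, secOrd_const hr hr0 hC⟩,
    ⟨0, secOrd_const hr hr0 hD⟩⟩

variable [CompleteSpace H]

/-- Constant of a concatenation. -/
def compK (K : ℝ) : ℝ :=
  let n := 4 * (14 * K * K) + 48 * (14 * K * K) ^ 2 + 2
  14 * K * (14 * n * K) + (K + 14 * K * (14 * n * (14 * K * K))) +
    (K + 14 * K * (14 * K * (14 * n * K))) +
    14 * K * (K + 14 * K * (14 * n * (14 * K * K)))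

theorem SegSec.comp {S T : X → Seg H} (hS : SegSec r K S) (hT : SegSec r K T)
    (hs : ∀ p, ‖p‖ ≤ r → ‖(T p).B.comp (S p).C‖ ≤ 1 / 2) :
    SegSec r (compK K) fun p => (S p).comp (T p) := by
  obtain ⟨_, sQ⟩ := hS.Q
  obtain ⟨_, sB⟩ := hS.B
  obtain ⟨_, sC⟩ := hS.C
  obtain ⟨_, sD⟩ := hS.D
  obtain ⟨_, tQ⟩ := hT.Q
  obtain ⟨_, tB⟩ := hT.B
  obtain ⟨_, tC⟩ := hT.C
  obtain ⟨_, tD⟩ := hT.D
  have hK := sQ.nonneg
  have hN := (tB.comp sC).neumann hs
  set n := 4 * (14 * K * K) + 48 * (14 * K * K) ^ 2 + 2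
  have hn : 0 ≤ n := hN.nonneg
  have hQ := sQ.comp (hN.comp tQ)
  have hB := sB.add (sQ.comp (hN.comp (tB.comp sD)))
  have hC := tC.add (tD.comp (sC.comp (hN.comp tQ)))
  have hD := tD.comp (sD.add (sC.comp (hN.comp (tB.comp sD))))
  have e1 : 0 ≤ 14 * K * (14 * n * K) := by positivity
  have e2 : 0 ≤ K + 14 * K * (14 * n * (14 * K * K)) := by positivity
  have e3 : 0 ≤ K + 14 * K * (14 * K * (14 * n * K)) := by positivity
  have e4 : 0 ≤ 14 * K * (K + 14 * K * (14 * n * (14 * K * K))) := by positivity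
  have hc : compK K = 14 * K * (14 * n * K) + (K + 14 * K * (14 * n * (14 * K * K))) +
    (K + 14 * K * (14 * K * (14 * n * K))) +
    14 * K * (K + 14 * K * (14 * n * (14 * K * K))) := rfl
  exact ⟨⟨_, (hQ.congr (g := fun p => ((S p).comp (T p)).Q) fun p _ => rfl).mono (by linarith)⟩,
    ⟨_, (hB.congr (g := fun p => ((S p).comp (T p)).B) fun p _ => rfl).mono (by linarith)⟩,
    ⟨_, (hC.congr (g := fun p => ((S p).comp (T p)).C) fun p _ => rfl).mono (by linarith)⟩,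
    ⟨_, (hD.congr (g := fun p => ((S p).comp (T p)).D) fun p _ => rfl).mono (by linarith)⟩⟩

/-- Constant of a range of at most `n` segments. -/
def chainK (K : ℝ) : ℕ → ℝ
  | 0 => max K 1
  | n + 1 => max (chainK K n) (compK (max K (chainK K n)))

theorem le_chainK (K : ℝ) : ∀ n, max K 1 ≤ chainK K n
  | 0 => le_rfl
  | n + 1 => (le_chainK K n).trans (le_max_left _ _)

theorem chainK_mono (K : ℝ) : Monotone (chainK K) :=
  monotone_nat_of_le_succ fun _ => le_max_left _ _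

/-- A range of families of second order is of second order. -/
theorem segRange_secSeg {S : X → ℕ → Seg H} (hr : r ≤ 1) (hr0 : 0 ≤ r) :
    ∀ n i, (∀ m, i ≤ m → m < i + n → SegSec r K fun p => S p m) →
      (∀ p, ‖p‖ ≤ r → ∀ m, i ≤ m → m < i + n →
        ‖(segRange (S p) (m + 1) (i + n - (m + 1))).B.comp (S p m).C‖ ≤ 1 / 2) →
      SegSec r (chainK K n) fun p => segRange (S p) i n
  | 0, _, _, _ => segSec_const _ hr hr0 (ContinuousLinearMap.norm_id_le.trans (le_max_right _ _))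
      (by show ‖(0 : H →L[ℝ] H)‖ ≤ _; rw [norm_zero]; exact zero_le_one.trans (le_max_right _ _))
      (by show ‖(0 : H →L[ℝ] H)‖ ≤ _; rw [norm_zero]; exact zero_le_one.trans (le_max_right _ _))
      (ContinuousLinearMap.norm_id_le.trans (le_max_right _ _))
  | n + 1, i, hS, hs => by
      have ih := segRange_secSeg (S := S) hr hr0 n (i + 1)
        (fun m h1 h2 => hS m (by omega) (by omega)) fun p hp m h1 h2 => by
          have := hs p hp m (by omega) (by omega)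
          rwa [show i + (n + 1) = i + 1 + n by omega] at this
      refine ((((hS i le_rfl (by omega)).mono (le_max_left K (chainK K n))).comp
        (ih.mono (le_max_right _ _)) fun p hp => ?_).mono (le_max_right _ _))
      have := hs p hp i le_rfl (by omega)
      rwa [show i + (n + 1) - (i + 1) = n by omega] at this

/-- The first order of the middle part of a product `N(X) Q N(Y)` applied to a vector `v` of an
invariant subspace: only the derivative of `Q` counts. -/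
theorem middle_first_order {XL YL QL : X →L[ℝ] H →L[ℝ] H} {Q₀ X₀ Y₀ : H →L[ℝ] H}
    {V : Submodule ℝ H} {η a b q k : ℝ} {x : X} (hX : ‖X₀‖ ≤ η) (hη : η ≤ 1 / 2)
    (hY : ‖Y₀‖ ≤ 1 / 2) (hq : 0 ≤ q) (hk : 0 ≤ k)
    (hXL : ‖XL x‖ ≤ a) (hNV : ∀ w ∈ V, neumann Y₀ w ∈ V)
    (hQV : ∀ w ∈ V, ‖Q₀ w‖ ≤ q * ‖w‖) (hQL : ∀ w ∈ V, ‖QL x w‖ ≤ k * ‖w‖)
    (hYη : ∀ w ∈ V, ‖Y₀ w‖ ≤ η * ‖w‖) (hYL : ∀ w ∈ V, ‖Q₀‖ * ‖YL x w‖ ≤ b * ‖w‖)
    {v : H} (hv : v ∈ V) :
    ‖linComp ((neumann X₀).comp Q₀) (neumann Y₀)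
        (linComp (neumann X₀) Q₀ (linComp (neumann X₀) (neumann X₀) 0
          (linComp 0 (neumann X₀) XL 0)) QL)
        (linComp (neumann Y₀) (neumann Y₀) 0 (linComp 0 (neumann Y₀) YL 0)) x v - QL x v‖
      ≤ (8 * a * q + 6 * η * k + 8 * b) * ‖v‖ := by
  set N₁ := neumann X₀
  set N₂ := neumann Y₀
  have h1 : ‖N₁‖ ≤ 2 := norm_neumann_two (hX.trans hη)
  have h2 : ‖N₂‖ ≤ 2 := norm_neumann_two hY
  have h1' : ‖N₁ - 1‖ ≤ 2 * η :=
    (norm_neumann_sub_one_two (hX.trans hη)).trans (by linarith)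
  set w := N₂ v
  have hw : w ∈ V := hNV v hv
  have hwn : ‖w‖ ≤ 2 * ‖v‖ := (N₂.le_of_opNorm_le h2 v)
  have hwd : ‖w - v‖ ≤ 2 * η * ‖v‖ := by
    have e : w - v = Y₀ w := by
      have := neumann_mul (T := Y₀) (by linarith) v
      simp only [sub_apply, one_apply_eq_self] at this
      show w - v = Y₀ w
      rw [sub_eq_iff_eq_add, add_comm]
      exact (sub_eq_iff_eq_add.1 this).trans (add_comm _ _) |>.trans (add_comm _ _)
    rw [e]
    have := hYη w hw
    have hη0 : 0 ≤ η := (norm_nonneg _).trans hX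
    calc ‖Y₀ w‖ ≤ η * ‖w‖ := this
      _ ≤ η * (2 * ‖v‖) := mul_le_mul_of_nonneg_left hwn hη0
      _ = 2 * η * ‖v‖ := by ring
  have hη0 : 0 ≤ η := (norm_nonneg _).trans hX
  have hwdV : w - v ∈ V := V.sub_mem hw hv
  simp only [linComp_apply, ContinuousLinearMap.comp_apply, add_apply, zero_apply,
    ContinuousLinearMap.zero_comp, ContinuousLinearMap.comp_zero, zero_add, add_zero]
  show ‖N₁ (XL x (N₁ (Q₀ w))) + N₁ (QL x w) + N₁ (Q₀ (N₂ (YL x w))) - QL x v‖ ≤ _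
  have t1 : ‖N₁ (XL x (N₁ (Q₀ w)))‖ ≤ 2 * (a * (2 * (q * (2 * ‖v‖)))) :=
    (N₁.le_of_opNorm_le h1 _).trans (mul_le_mul_of_nonneg_left
      (((XL x).le_of_opNorm_le hXL _).trans (mul_le_mul_of_nonneg_left
        ((N₁.le_of_opNorm_le h1 _).trans (mul_le_mul_of_nonneg_left
          ((hQV w hw).trans (mul_le_mul_of_nonneg_left hwn hq)) zero_le_two))
        ((norm_nonneg _).trans hXL))) zero_le_two)
  have t2 : ‖N₁ (QL x w) - QL x v‖ ≤ 2 * η * (k * (2 * ‖v‖)) + k * (2 * η * ‖v‖) := by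
    rw [show N₁ (QL x w) - QL x v = (N₁ - 1) (QL x w) + QL x (w - v) by
      rw [sub_apply, one_apply_eq_self, map_sub]; abel]
    refine (norm_add_le _ _).trans (add_le_add ?_ ((hQL _ hwdV).trans
      (mul_le_mul_of_nonneg_left hwd hk)))
    exact ((N₁ - 1).le_of_opNorm_le h1' _).trans (mul_le_mul_of_nonneg_left
      ((hQL w hw).trans (mul_le_mul_of_nonneg_left hwn hk)) (by positivity))
  have t3 : ‖N₁ (Q₀ (N₂ (YL x w)))‖ ≤ 2 * (2 * (b * (2 * ‖v‖))) := by
    refine (N₁.le_of_opNorm_le h1 _).trans (mul_le_mul_of_nonneg_left ?_ zero_le_two)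
    refine (Q₀.le_opNorm _).trans ?_
    calc ‖Q₀‖ * ‖N₂ (YL x w)‖ ≤ ‖Q₀‖ * (2 * ‖YL x w‖) :=
          mul_le_mul_of_nonneg_left (N₂.le_of_opNorm_le h2 _) (norm_nonneg _)
      _ = 2 * (‖Q₀‖ * ‖YL x w‖) := by ring
      _ ≤ 2 * (b * ‖w‖) := mul_le_mul_of_nonneg_left (hYL w hw) zero_le_two
      _ ≤ 2 * (b * (2 * ‖v‖)) := by
          rcases eq_or_ne v 0 with hv0 | hv0
          · simp [w, hv0]
          · have hb : 0 ≤ b := by
              have := (mul_nonneg (norm_nonneg Q₀) (norm_nonneg (YL x v))).trans (hYL v hv)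
              exact nonneg_of_mul_nonneg_left this (norm_pos_iff.2 hv0)
            gcongr
  rw [show N₁ (XL x (N₁ (Q₀ w))) + N₁ (QL x w) + N₁ (Q₀ (N₂ (YL x w))) - QL x v
    = N₁ (XL x (N₁ (Q₀ w))) + (N₁ (QL x w) - QL x v) + N₁ (Q₀ (N₂ (YL x w))) by abel]
  refine ((norm_add_le _ _).trans (add_le_add (norm_add_le _ _) le_rfl)).trans
    ((add_le_add (add_le_add t1 t2) t3).trans (le_of_eq ?_))
  ring

end

end Vale.Agent.P225
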